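import Crest.Agent.N067.W.TLm
import Crest.Agent.N067.V.Ball
import Crest.Agent.N067.H.Hardy
import Crest.Agent.N067.M.Bas
import Crest.Agent.N067.H.Tan

-- ▼ part N067/W/Sum
section

/-!
# Row 67, block W (helper47): Kato inequality for the sum of the two sides, `sumS : Data → Out`
-/

set_option autoImplicit false

open MeasureTheory Laplacian InnerProductSpace Topology Filter Set Metric
open scoped RealInnerProductSpace ContDiff Gradient NNReal

namespace Crest.Agent.N067.W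

open Crest.Agent.R077 V

noncomputable section

variable {n : ℕ} {v p q potp potq : EE n → ℝ} {x : EE n} {Ω : Set (EE n)}
  {H H1 H2 kap : ℝ → ℝ} {e k0 Umin η : ℝ}

/-- one active side: a fraction `η` of the Kato gain is spent on the side itself -/
theorem Side.bound {act : EE n → Prop} (h : Side v p Ω e potp act) (hx : x ∈ Ω) (hc : act x)
    (hd : DifferentiableAt ℝ p x) {b : ℝ}
    (hb0 : 0 < b) (hup : ∀ ζ, hb (dd v) x ζ ζ ≤ 2 * b * ‖ζ‖ ^ 2) (hk0 : 0 < k0) (hk1 : k0 < 1)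
    (he : 0 ≤ e) (hη : η ≤ 1) (hek : e ≤ η * k0 / 4) (hact : k0 * b ≤ p x) (ζ : EE n) :
    TLm v p x (-(p x * potp x) + (1 - η) * (4 * ⟪∇ p x, ζ⟫
      - 2 * (hb (dd v) x ζ ζ + (1 + e) * p x * ‖ζ‖ ^ 2)) + η * k0 / 4 * (‖∇ p x‖ ^ 2 / p x)) := by
  have ha := h.pos x hx
  have hη0 : 0 ≤ η := by
    by_contra h1
    nlinarith [mul_pos (neg_pos.2 (not_le.1 h1)) hk0]
  have he1 : e ≤ 1 := by nlinarith
  set s := (1 + e) * p x + 2 * b with hs
  have hs0 : 0 < s := by positivity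
  refine ((h.tl x hx hc hd ζ).convex (h.tl x hx hc hd (s⁻¹ • ∇ p x)) hη0 hη).mono ?_
  have h1 := hup (s⁻¹ • ∇ p x)
  rw [real_inner_smul_right, real_inner_self_eq_norm_sq]
  set G := ‖∇ p x‖ ^ 2 with hG
  have hG0 : 0 ≤ G := sq_nonneg _
  have h2 : ‖s⁻¹ • ∇ p x‖ ^ 2 = s⁻¹ ^ 2 * G := by
    rw [norm_smul, mul_pow, Real.norm_eq_abs, sq_abs]
  rw [h2] at h1 ⊢
  have h3 : 2 * b * (s⁻¹ ^ 2 * G) + (1 + e) * p x * (s⁻¹ ^ 2 * G) = s⁻¹ * G := by
    have : 2 * b + (1 + e) * p x = s := by rw [hs]; ring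
    rw [← add_mul, this]; field_simp
  have h4 : k0 / 4 * (G / p x) ≤ s⁻¹ * G := by
    rw [mul_comm s⁻¹, ← div_eq_mul_inv, div_mul_div_comm, div_le_div_iff₀ (by positivity) hs0]
    have : k0 * s ≤ 4 * p x := by
      have h5 : k0 * (1 + e) ≤ 2 := by nlinarith
      rw [hs]; nlinarith
    nlinarith
  have h5 : e * G / p x ≤ η * k0 / 4 * (G / p x) := by
    rw [mul_div_assoc]; exact mul_le_mul_of_nonneg_right hek (by positivity)
  nlinarith [mul_le_mul_of_nonneg_left h4 hη0, mul_le_mul_of_nonneg_left h1 hη0]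

/-- the weighted side after composition with `H` -/
theorem Side.wbound {act : EE n → Prop} (h : Side v p Ω e potp act) (hH : HDes H H1 H2)
    (hx : x ∈ Ω) (hd : DifferentiableAt ℝ p x) {b w : ℝ}
    (hb0 : 0 < b) (hup : ∀ ζ, hb (dd v) x ζ ζ ≤ 2 * b * ‖ζ‖ ^ 2) (hk0 : 0 < k0) (hk1 : k0 < 1)
    (he : 0 ≤ e) (hη : η ≤ 1) (hek : e ≤ η * k0 / 4) (hw : 0 ≤ w)
    (hact : w ≠ 0 → k0 * b ≤ p x ∧ act x)
    (ζ : EE n) : TLm v (fun y => w * H (p y)) x (w * (H1 (p x) * (-(p x * potp x)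
      + (1 - η) * (4 * ⟪∇ p x, ζ⟫ - 2 * (hb (dd v) x ζ ζ + (1 + e) * p x * ‖ζ‖ ^ 2))
      + η * k0 / 4 * (‖∇ p x‖ ^ 2 / p x)) + H2 (p x) * ‖∇ p x‖ ^ 2)) := by
  by_cases h0 : w = 0
  · simpa [h0] using TLm.const (v := v) (x := x) 0
  · have := (hH.tlm (h.bound hx (hact h0).2 hd hb0 hup hk0 hk1 he hη hek (hact h0).1 ζ) hd
      (h.pos x hx)).smul hw
    rwa [gsq_eq] at this

theorem U0_comm (k0 A B : ℝ) : U0 k0 A B = U0 k0 B A := by
  rw [U0, U0, add_comm A, max_comm ((1 + k0) * A)]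

theorem UU_comm (H : ℝ → ℝ) (k0 Umin : ℝ) (p q : EE n → ℝ) : UU H k0 Umin p q = UU H k0 Umin q p :=
  funext fun x => by rw [UU, UU, U0_comm]


theorem UU_pos (hU : 0 < Umin) (x : EE n) : 0 < UU H k0 Umin p q x :=
  hU.trans_le (le_max_right _ _)

theorem cw_nonneg (hk0 : 0 < k0) (Umin A B : ℝ) : 0 ≤ cw k0 Umin A B := by
  unfold cw; split_ifs <;> linarith

theorem cw_le (hk0 : 0 < k0) (Umin A B : ℝ) : cw k0 Umin A B ≤ 1 + k0 := by
  unfold cw; split_ifs <;> linarith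

theorem cw_of_le {A B : ℝ} (h : U0 k0 A B ≤ Umin) : cw k0 Umin A B = 0 := if_pos h

/-- the three active branches -/
theorem cw_cases (hk0 : 0 < k0) (hk1 : k0 < 1) {A B : ℝ} (hA : 0 < A) (hB : 0 < B)
    (h : Umin < U0 k0 A B) :
    (cw k0 Umin A B = 1 + k0 ∧ cw k0 Umin B A = 0 ∧ B ≤ k0 * A) ∨
    (cw k0 Umin A B = 0 ∧ cw k0 Umin B A = 1 + k0 ∧ A ≤ k0 * B) ∨
    (cw k0 Umin A B = 1 ∧ cw k0 Umin B A = 1 ∧ k0 * A < B ∧ k0 * B < A) := by
  have h' : ¬U0 k0 B A ≤ Umin := by rw [U0_comm]; exact not_le.2 h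
  unfold cw
  rw [if_neg (not_le.2 h), if_neg h']
  by_cases h1 : B ≤ k0 * A
  · have h2 : ¬A ≤ k0 * B := by intro h2; nlinarith
    simp [h1, h2]
  · by_cases h2 : A ≤ k0 * B
    · simp [h1, h2]
    · simp [h1, h2, not_le.1 h1, not_le.1 h2]

theorem cw_eq (hk0 : 0 < k0) (hk1 : k0 < 1) {A B : ℝ} (hA : 0 < A) (hB : 0 < B)
    (h : Umin < U0 k0 A B) : cw k0 Umin A B * A + cw k0 Umin B A * B = U0 k0 A B := by
  unfold U0
  rcases cw_cases hk0 hk1 hA hB h with ⟨h1, h2, h3⟩ | ⟨h1, h2, h3⟩ | ⟨h1, h2, h3, h4⟩ <;>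
    rw [h1, h2]
  · rw [max_eq_left (a := (1 + k0) * A) (by nlinarith), max_eq_right (by nlinarith)]; ring
  · rw [max_eq_right (a := (1 + k0) * A) (by nlinarith), max_eq_right (by nlinarith)]; ring
  · rw [max_eq_left (max_le (by nlinarith) (by nlinarith))]; ring

theorem cw_le_U0 (hk0 : 0 < k0) (hk1 : k0 < 1) {A B : ℝ} (hA : 0 < A) (hB : 0 < B)
    (h : Umin < U0 k0 A B) (A' B' : ℝ) :
    cw k0 Umin A B * A' + cw k0 Umin B A * B' ≤ U0 k0 A' B' := by
  unfold U0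
  rcases cw_cases hk0 hk1 hA hB h with ⟨h1, h2, -⟩ | ⟨h1, h2, -⟩ | ⟨h1, h2, -⟩ <;> rw [h1, h2]
  · simp
  · simp
  · simp

/-- an active side has a comparable size -/
theorem cw_act (hH : HDes H H1 H2) (hk1 : k0 < 1) {a b : ℝ} (ha : 0 < a) (hb : 0 < b)
    (h : cw k0 Umin (H a) (H b) ≠ 0) : k0 * b ≤ a := by
  by_cases hab : b ≤ a
  · nlinarith
  have h1 := hH.ratio ha (not_le.1 hab).le
  have h2 := hH.strictMono ha hb (not_le.1 hab)
  have hA := hH.pos a ha
  unfold cw at h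
  split_ifs at h with h3 h4 h5
  · exact absurd rfl h
  · nlinarith
  · exact absurd rfl h
  · by_contra h6
    nlinarith [mul_pos (sub_pos.2 (not_le.1 h6)) (hA.trans h2),
      mul_lt_mul_of_pos_left (not_le.1 h5) hb]

/-- the algebra of the Kato inequality -/
theorem kato_alg (hH : HDes H H1 H2) {a b w w' κ : ℝ} (ha : 0 < a) (hb : 0 < b) (hk0 : 0 < k0)
    (he : 0 ≤ e) (hη0 : 0 ≤ η) (hη : η ≤ 1) (hw : 0 ≤ w) (hw' : 0 ≤ w') (hw1 : w ≤ 1 + k0)
    (hw1' : w' ≤ 1 + k0) (hU : w * H a + w' * H b = U0 k0 (H a) (H b))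
    (hκ : Kato H H1 H2 k0 a b κ) {P Q : EE n → ℝ} (p0 : P 0 = 0) (q0 : Q 0 = 0)
    (hPQ : ∀ ζ c, w * H1 a ≤ c → w' * H1 b ≤ c →
      w * H1 a * P ζ + w' * H1 b * Q ζ ≤ c * ((1 + e) * (a + b) * ‖ζ‖ ^ 2)) (g g' : EE n) :
    ∃ ζ, (1 - η) * κ / ((1 + e) * (1 + k0)) * ‖(w * H1 a) • g + (w' * H1 b) • g'‖ ^ 2
        / U0 k0 (H a) (H b) ≤
      w * (H1 a * ((1 - η) * (4 * ⟪g, ζ⟫ - 2 * P ζ)) + H2 a * ‖g‖ ^ 2)
        + w' * (H1 b * ((1 - η) * (4 * ⟪g', ζ⟫ - 2 * Q ζ)) + H2 b * ‖g'‖ ^ 2) := by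
  set Y := (w * H1 a) • g + (w' * H1 b) • g' with hY
  set U := U0 k0 (H a) (H b) with hUd
  have hA := hH.pos a ha
  have hB := hH.pos b hb
  have hU0 : 0 < U := (add_pos hA hB).trans_le (le_max_left _ _)
  have a1 := hH.pos1 a ha
  have b1 := hH.pos1 b hb
  have a2 := mul_nonneg hw (mul_nonneg (hH.pos2 a ha) (sq_nonneg ‖g‖))
  have b2 := mul_nonneg hw' (mul_nonneg (hH.pos2 b hb) (sq_nonneg ‖g'‖))
  have hη1 := sub_nonneg.2 hη
  obtain ⟨hκ0, h | ⟨h1, h2⟩⟩ := hκ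
  · set m := H1 (max a b) with hm
    have hm0 : 0 < m := hH.pos1 _ (lt_max_of_lt_left ha)
    have m1 : w * H1 a ≤ (1 + k0) * m := mul_le_mul hw1
      (hH.mono ha (lt_max_of_lt_left ha) (le_max_left _ _)) a1.le (by linarith)
    have m2 : w' * H1 b ≤ (1 + k0) * m := mul_le_mul hw1'
      (hH.mono hb (lt_max_of_lt_left ha) (le_max_right _ _)) b1.le (by linarith)
    set c := (1 + k0) * m * ((1 + e) * (a + b)) with hc
    have hc0 : 0 < c := by positivity
    refine ⟨c⁻¹ • Y, ?_⟩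
    set ζ := c⁻¹ • Y with hζ
    have e1 : w * H1 a * ⟪g, ζ⟫ + w' * H1 b * ⟪g', ζ⟫ = ‖Y‖ ^ 2 / c := by
      rw [← real_inner_smul_left, ← real_inner_smul_left, ← inner_add_left, ← hY, hζ,
        real_inner_smul_right, real_inner_self_eq_norm_sq]
      ring
    have e2 : w * H1 a * P ζ + w' * H1 b * Q ζ ≤ ‖Y‖ ^ 2 / c := by
      refine (hPQ ζ _ m1 m2).trans (le_of_eq ?_)
      rw [hζ, norm_smul, mul_pow, Real.norm_eq_abs, sq_abs, ← mul_assoc, ← hc]
      field_simp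
    have e4 : κ / ((1 + e) * (1 + k0)) * ‖Y‖ ^ 2 / U ≤ 2 * (‖Y‖ ^ 2 / c) := by
      rw [div_mul_eq_mul_div, div_div, ← mul_div_assoc, div_le_div_iff₀ (by positivity) hc0, hc]
      have := mul_le_mul_of_nonneg_left h
        (by positivity : 0 ≤ ‖Y‖ ^ 2 * ((1 + e) * (1 + k0)))
      nlinarith
    have e5 := mul_le_mul_of_nonneg_left e4 hη1
    have e6 : (1 - η) * κ / ((1 + e) * (1 + k0)) * ‖Y‖ ^ 2 / U
        = (1 - η) * (κ / ((1 + e) * (1 + k0)) * ‖Y‖ ^ 2 / U) := by ring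
    rw [e6]
    nlinarith [mul_le_mul_of_nonneg_left e2 hη1]
  · refine ⟨0, ?_⟩
    simp only [inner_zero_right, p0, q0, mul_zero, sub_zero, zero_add]
    have y1 : ‖Y‖ ≤ w * H1 a * ‖g‖ + w' * H1 b * ‖g'‖ := by
      refine (norm_add_le _ _).trans (le_of_eq ?_)
      rw [norm_smul, norm_smul, Real.norm_of_nonneg (by positivity),
        Real.norm_of_nonneg (by positivity)]
    have y2 : ‖Y‖ ^ 2 ≤ U * (w * (H1 a ^ 2 * ‖g‖ ^ 2 / H a) + w' * (H1 b ^ 2 * ‖g'‖ ^ 2 / H b)) := by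
      refine (pow_le_pow_left₀ (norm_nonneg _) y1 2).trans ?_
      rw [← hU, ← sub_nonneg]
      have : (w * H a + w' * H b) * (w * (H1 a ^ 2 * ‖g‖ ^ 2 / H a)
          + w' * (H1 b ^ 2 * ‖g'‖ ^ 2 / H b)) - (w * H1 a * ‖g‖ + w' * H1 b * ‖g'‖) ^ 2
          = w * w' * (H b * (H1 a * ‖g‖) - H a * (H1 b * ‖g'‖)) ^ 2 / (H a * H b) := by
        field_simp; ring
      rw [this]; positivity
    have y3 : κ * (H1 a ^ 2 * ‖g‖ ^ 2 / H a) ≤ H2 a * ‖g‖ ^ 2 := by
      rw [← mul_div_assoc, div_le_iff₀ hA]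
      nlinarith [mul_le_mul_of_nonneg_right h1 (sq_nonneg ‖g‖)]
    have y4 : κ * (H1 b ^ 2 * ‖g'‖ ^ 2 / H b) ≤ H2 b * ‖g'‖ ^ 2 := by
      rw [← mul_div_assoc, div_le_iff₀ hB]
      nlinarith [mul_le_mul_of_nonneg_right h2 (sq_nonneg ‖g'‖)]
    have y5 : (1 - η) * κ / ((1 + e) * (1 + k0)) ≤ κ := by
      rw [div_le_iff₀ (by positivity)]
      nlinarith [mul_nonneg hκ0 hη0, mul_nonneg hκ0 he, mul_nonneg hκ0 hk0.le,
        mul_nonneg hκ0 (mul_nonneg he hk0.le)]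
    rw [div_le_iff₀ hU0]
    have y6 := mul_le_mul_of_nonneg_right y5 (sq_nonneg ‖Y‖)
    have y7 := mul_le_mul_of_nonneg_left y2 hκ0
    have y8 := mul_le_mul_of_nonneg_left
      (add_le_add (mul_le_mul_of_nonneg_left y3 hw) (mul_le_mul_of_nonneg_left y4 hw')) hU0.le
    nlinarith

theorem grad_of_fderiv {f : EE n → ℝ} {a : EE n} (h : ∀ z, fderiv ℝ f x z = ⟪a, z⟫) : ∇ f x = a :=
  ext_inner_right ℝ fun z => by rw [inner_grad, h]

variable (D : Data v p q Ω e potp potq H H1 H2 kap k0 Umin η)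
include D

theorem Data.η_nonneg : 0 ≤ η := by
  by_contra h1
  nlinarith [mul_pos (neg_pos.2 (not_le.1 h1)) D.k0_pos, D.e_pos, D.e_le]

theorem Data.scU : SC Ω (UU H k0 Umin p q) := by
  have hp := D.des.sc D.op D.sp.sc D.sp.pos
  have hq := D.des.sc D.op D.sq.sc D.sq.pos
  have hk : 0 ≤ 1 + k0 := by linarith [D.k0_pos]
  exact ((hp.add hq).max ((sc_smul D.op hp hk).max (sc_smul D.op hq hk))).max (sc_const Umin)

theorem Data.scu : SC Ω (uu H k0 Umin p q) :=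
  D.scU.comp1 D.op (F := Real.log) isOpen_Ioi
    (fun _ hs => (Real.contDiffAt_log.2 (ne_of_gt hs)).contDiffWithinAt)
    Real.strictMonoOn_log.monotoneOn fun x _ => UU_pos D.Umin_pos x

/-- the pointwise statement -/
theorem Data.point (hx : x ∈ Ω) (dp : DifferentiableAt ℝ p x) (dq : DifferentiableAt ℝ q x)
    (dU : DifferentiableAt ℝ (UU H k0 Umin p q) x) :
    ∇ (uu H k0 Umin p q) x =
      (am H H1 k0 Umin p q x / p x) • ∇ p x + (am H H1 k0 Umin q p x / q x) • ∇ q x ∧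
    TLm v (uu H k0 Umin p q) x (GG H H1 kap k0 Umin e η p q potp potq x) := by
  have ha := D.sp.pos x hx
  have hb' := D.sq.pos x hx
  have hU := UU_pos (H := H) (k0 := k0) (p := p) (q := q) D.Umin_pos x
  set U := UU H k0 Umin p q with hUd
  set w := cw k0 Umin (H (p x)) (H (q x)) with hw
  set w' := cw k0 Umin (H (q x)) (H (p x)) with hw'
  have e1 : am H H1 k0 Umin p q x = w * H1 (p x) * p x / U x := rfl
  have e2 : am H H1 k0 Umin q p x = w' * H1 (q x) * q x / U x := by rw [hUd, UU_comm]; rfl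
  have gu : ∇ (uu H k0 Umin p q) x = (U x)⁻¹ • ∇ U x := grad_of_fderiv fun z => by
    rw [show fderiv ℝ (uu H k0 Umin p q) x = _ from (dU.hasFDerivAt.log hU.ne').fderiv,
      real_inner_smul_left, inner_grad]
    rfl
  have qu : gsq (uu H k0 Umin p q) x = gsq U x / U x ^ 2 := by
    rw [gsq_eq, gsq_eq, gu, norm_smul, mul_pow, Real.norm_eq_abs, sq_abs]
    ring
  by_cases h0 : U0 k0 (H (p x)) (H (q x)) ≤ Umin
  · have w0 : w = 0 := cw_of_le h0
    have w0' : w' = 0 := cw_of_le (by rwa [U0_comm])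
    have hUx : Umin = U x := (max_eq_right h0).symm
    have hl : ∀ᶠ y in 𝓝 x, Umin ≤ U y := Eventually.of_forall fun y => le_max_right _ _
    have g0 : ∇ U x = 0 := grad_of_fderiv fun z => by
      rw [← fderiv_touch (f := fun _ => Umin) dU (differentiableAt_const _) hUx hl]; simp
    refine ⟨by simp [gu, g0, e1, e2, w0, w0'], ?_⟩
    refine (((TLm.const (v := v) (x := x) Umin).of_le hUx hl).log dU hU).mono (le_of_eq ?_)
    simp [GG, e1, e2, w0, w0', qu, gsq_eq, g0]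
  push Not at h0
  have hA := D.des.pos _ ha
  have hB := D.des.pos _ hb'
  have hUx : U x = U0 k0 (H (p x)) (H (q x)) := max_eq_left h0.le
  have hS := cw_eq D.k0_pos D.k0_lt hA hB h0
  have hl : ∀ᶠ y in 𝓝 x, w * H (p y) + w' * H (q y) ≤ U y := Eventually.of_forall fun y =>
    (cw_le_U0 D.k0_pos D.k0_lt hA hB h0 _ _).trans (le_max_left _ _)
  have dS := (((D.des.hd _ ha).comp_hasFDerivAt x dp.hasFDerivAt).const_mul w).add
    (((D.des.hd _ hb').comp_hasFDerivAt x dq.hasFDerivAt).const_mul w')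
  have gU : ∇ U x = (w * H1 (p x)) • ∇ p x + (w' * H1 (q x)) • ∇ q x := grad_of_fderiv fun z => by
    rw [← fderiv_touch dU dS.differentiableAt (hS.trans hUx.symm) hl, dS.fderiv, inner_add_left,
      real_inner_smul_left, real_inner_smul_left, inner_grad, inner_grad]
    simp only [add_apply, smul_apply, smul_eq_mul]
    ring
  refine ⟨?_, ?_⟩
  · rw [gu, gU, smul_add, smul_smul, smul_smul, e1, e2]
    congr 2 <;> field_simp
  have lp := D.sp.low2 x hx
  have lq := D.sq.low2 x hx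
  have wp := cw_nonneg D.k0_pos Umin (H (p x)) (H (q x))
  have wq := cw_nonneg D.k0_pos Umin (H (q x)) (H (p x))
  have ap := cw_act (Umin := Umin) D.des D.k0_lt ha hb'
  have aq := cw_act (Umin := Umin) D.des D.k0_lt hb' ha
  have a1 := mul_nonneg wp (D.des.pos1 _ ha).le
  have b1 := mul_nonneg wq (D.des.pos1 _ hb').le
  have k0p := D.k0_pos
  have e0 := D.e_pos
  obtain ⟨ζ, hζ⟩ := kato_alg (e := e + k0) D.des ha hb' D.k0_pos (by positivity) D.η_nonneg D.η_le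
    wp wq (cw_le D.k0_pos _ _ _) (cw_le D.k0_pos _ _ _) hS (D.kato _ ha _ hb' h0)
    (P := fun ζ => hb (dd v) x ζ ζ + (1 + e) * p x * ‖ζ‖ ^ 2)
    (Q := fun ζ => hb (dd fun x => -v x) x ζ ζ + (1 + e) * q x * ‖ζ‖ ^ 2) (by simp) (by simp)
    (fun ζ c c1 c2 => by
      have z0 := sq_nonneg ‖ζ‖
      have l1 := lp ζ
      have l2 := lq ζ
      rw [hb_neg_v D.sol] at l2 ⊢
      have pz := mul_nonneg ha.le z0
      have qz := mul_nonneg hb'.le z0
      have hP : ∀ (_ : k0 * q x ≤ p x), 0 ≤ hb (dd v) x ζ ζ + (1 + e) * p x * ‖ζ‖ ^ 2 :=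
        fun h => D.sp.low x hx h dp ζ
      have hQ : ∀ (_ : k0 * p x ≤ q x), 0 ≤ -hb (dd v) x ζ ζ + (1 + e) * q x * ‖ζ‖ ^ 2 :=
        fun h => by have := D.sq.low x hx h dq ζ; rwa [hb_neg_v D.sol] at this
      have uP : hb (dd v) x ζ ζ + (1 + e) * p x * ‖ζ‖ ^ 2
          ≤ (1 + (e + k0)) * (p x + q x) * ‖ζ‖ ^ 2 := by
        by_cases h : k0 * p x ≤ q x
        · nlinarith [hQ h, mul_nonneg k0p.le (add_nonneg pz qz)]
        · nlinarith [mul_le_mul_of_nonneg_right (not_le.1 h).le z0, mul_nonneg e0 qz,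
            mul_nonneg k0p.le qz]
      have uQ : -hb (dd v) x ζ ζ + (1 + e) * q x * ‖ζ‖ ^ 2
          ≤ (1 + (e + k0)) * (p x + q x) * ‖ζ‖ ^ 2 := by
        by_cases h : k0 * q x ≤ p x
        · nlinarith [hP h, mul_nonneg k0p.le (add_nonneg pz qz)]
        · nlinarith [mul_le_mul_of_nonneg_right (not_le.1 h).le z0, mul_nonneg e0 pz,
            mul_nonneg k0p.le pz]
      have s0 : 0 ≤ (1 + (e + k0)) * (p x + q x) * ‖ζ‖ ^ 2 := by positivity
      by_cases w0 : cw k0 Umin (H (p x)) (H (q x)) = 0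
      · rw [w0, zero_mul, zero_mul, zero_add]
        exact (mul_le_mul_of_nonneg_left uQ b1).trans (mul_le_mul_of_nonneg_right c2 s0)
      by_cases w0' : cw k0 Umin (H (q x)) (H (p x)) = 0
      · rw [w0', zero_mul, zero_mul, add_zero]
        exact (mul_le_mul_of_nonneg_left uP a1).trans (mul_le_mul_of_nonneg_right c1 s0)
      have c0 := a1.trans c1
      nlinarith [mul_le_mul_of_nonneg_right c1 (hP (ap w0)),
        mul_le_mul_of_nonneg_right c2 (hQ (aq w0')),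
        mul_nonneg c0 (mul_nonneg k0p.le (add_nonneg pz qz))]) (∇ p x) (∇ q x)
  have t1 := D.sp.wbound D.des hx dp hb' (fun ζ => by
      have := lq ζ; rw [hb_neg_v D.sol] at this; linarith) D.k0_pos D.k0_lt D.e_pos D.η_le D.e_le
    wp (fun h => ⟨ap h, ap h⟩) ζ
  have t2 := (D.sq.wbound D.des hx dq ha (fun ζ => by
      have := lp ζ; rw [hb_neg_v D.sol]; linarith) D.k0_pos D.k0_lt D.e_pos D.η_le D.e_le
    wq (fun h => ⟨aq h, aq h⟩) ζ).neg_v D.sol
  refine (((t1.add t2).of_le (hS.trans hUx.symm) hl).log dU hU).mono ?_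
  rw [← gU, ← hUx, ← gsq_eq, ← hw, ← hw', ← add_assoc 1 e k0] at hζ
  rw [GG, e1, e2, qu, ← hUd, gsq_eq p, gsq_eq q, ← hw, ← hw', ← sub_nonneg]
  set R := w * (H1 (p x) * ((1 - η) * (4 * ⟪∇ p x, ζ⟫
      - 2 * (hb (dd v) x ζ ζ + (1 + e) * p x * ‖ζ‖ ^ 2))) + H2 (p x) * ‖∇ p x‖ ^ 2)
    + w' * (H1 (q x) * ((1 - η) * (4 * ⟪∇ q x, ζ⟫
      - 2 * (hb (dd fun x => -v x) x ζ ζ + (1 + e) * q x * ‖ζ‖ ^ 2))) + H2 (q x) * ‖∇ q x‖ ^ 2)
    with hR
  refine le_of_le_of_eq (div_nonneg (sub_nonneg.2 hζ) hU.le) ?_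
  rw [hR]
  field_simp
  ring

theorem Data.lb_am : LB Ω (am H H1 k0 Umin p q) := by
  have cp := (D.sp.sc.locLip D.op).continuousOn
  have cH : ∀ {p : EE n → ℝ}, ContinuousOn p Ω → (∀ x ∈ Ω, 0 < p x) →
      ContinuousOn (fun x => H (p x)) Ω := fun cp h0 x hx =>
    (D.des.hd _ (h0 x hx)).continuousAt.comp_continuousWithinAt (cp x hx)
  have mp := (cH cp D.sp.pos).aemeasurable (μ := volume) D.op.measurableSet
  have mq := (cH (D.sq.sc.locLip D.op).continuousOn D.sq.pos).aemeasurable (μ := volume)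
    D.op.measurableSet
  have mc : Measurable fun z : ℝ × ℝ => cw k0 Umin z.1 z.2 := by
    unfold cw U0
    exact Measurable.ite (measurableSet_le (by fun_prop) measurable_const) measurable_const
      (Measurable.ite (measurableSet_le (by fun_prop) (by fun_prop)) measurable_const
        (Measurable.ite (measurableSet_le (by fun_prop) (by fun_prop)) measurable_const
          measurable_const))
  have l1 : LB Ω fun x => cw k0 Umin (H (p x)) (H (q x)) :=
    ⟨(mc.comp_aemeasurable (mp.prodMk mq)).aestronglyMeasurable, fun _ _ _ => ⟨1 + k0, fun x _ => by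
      rw [abs_of_nonneg (cw_nonneg D.k0_pos _ _ _)]; exact cw_le D.k0_pos _ _ _⟩⟩
  have l2 : LB Ω fun x => H1 (p x) := by
    refine ⟨(((measurable_deriv H).comp_aemeasurable (cp.aemeasurable (μ := volume)
      D.op.measurableSet)).aestronglyMeasurable).congr ?_, fun K hK hc => ?_⟩
    · filter_upwards [ae_restrict_mem D.op.measurableSet] with x hx
      exact (D.des.hd _ (D.sp.pos x hx)).deriv
    · obtain ⟨M, hM⟩ := hc.exists_bound_of_continuousOn (cp.mono hK)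
      refine ⟨H1 (|M| + 1), fun x hx => ?_⟩
      have h4 := D.sp.pos x (hK hx)
      rw [abs_of_pos (D.des.pos1 _ h4)]
      exact D.des.mono h4 (show (0 : ℝ) < |M| + 1 by positivity) (by
        linarith [le_abs_self (p x), le_abs_self M, hM x hx, Real.norm_eq_abs (p x)])
  have l3 := LB.of_cont D.op ((D.scU.locLip D.op).continuousOn.inv₀ fun x _ =>
    (UU_pos D.Umin_pos x).ne')
  exact ((l1.mul l2).mul (LB.of_cont D.op cp)).mul l3

/-- the two sides play symmetric roles -/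
theorem Data.symm : Data (fun x => -v x) q p Ω e potq potp H H1 H2 kap k0 Umin η :=
  { D with
    sol := D.sol.neg'
    sp := D.sq
    sq := by simpa using D.sp
    lp := D.lq
    lq := D.lp
    kato := fun a ha b hb h => D.kato a ha b hb h }

theorem Data.lb_GG : LB Ω (GG H H1 kap k0 Umin e η p q potp potq) := by
  have l0 : ∀ c : ℝ, LB Ω fun _ => c := fun c => LB.of_cont D.op continuousOn_const
  have cU := (D.scU.locLip D.op).continuousOn
  have lk : LB Ω fun x => kap (UU H k0 Umin p q x) := by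
    obtain ⟨C, hC⟩ := D.bkap
    exact ⟨(D.mkap.comp_aemeasurable (cU.aemeasurable (μ := volume)
      D.op.measurableSet)).aestronglyMeasurable, fun _ _ _ => ⟨C, fun x _ => hC _⟩⟩
  have lg : ∀ {p : EE n → ℝ}, SC Ω p → (∀ x ∈ Ω, 0 < p x) → LB Ω fun x => gsq p x / p x ^ 2 :=
    fun h h0 => (LB.gsq D.op (h.locLip D.op)).mul (LB.of_cont D.op
      (((h.locLip D.op).continuousOn.pow 2).inv₀ fun x hx => (pow_pos (h0 x hx) 2).ne'))
  have h1 := ((l0 (-1)).mul ((D.lb_am.mul D.lp).add (D.symm.lb_am.mul D.lq))).add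
    ((((((l0 (1 - η)).mul lk).mul (l0 ((1 + e + k0) * (1 + k0))⁻¹)).sub (l0 1)).mul
      (LB.gsq D.op (D.scu.locLip D.op))))
  have h2 := h1.add ((l0 (η * k0 / 4)).mul ((D.lb_am.mul (lg D.sp.sc D.sp.pos)).add
    (D.symm.lb_am.mul (lg D.sq.sc D.sq.pos))))
  convert h2 using 2 with x
  rw [GG, neg_one_mul, div_eq_mul_inv (_ * kap _)]

theorem Data.ae_point : ∀ᵐ x, x ∈ Ω → (∇ (uu H k0 Umin p q) x =
      (am H H1 k0 Umin p q x / p x) • ∇ p x + (am H H1 k0 Umin q p x / q x) • ∇ q x ∧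
    TLm v (uu H k0 Umin p q) x (GG H H1 kap k0 Umin e η p q potp potq x)) := by
  filter_upwards [ae_diff D.op (D.sp.sc.locLip D.op), ae_diff D.op (D.sq.sc.locLip D.op),
    ae_diff D.op (D.scU.locLip D.op)] with x h1 h2 h3 hx
  exact D.point hx (h1 hx) (h2 hx) (h3 hx)

/-- **the block** -/
theorem sumS : Out v p q Ω e potp potq H H1 kap k0 Umin η where
  sc := D.scu
  lam := ⟨D.lb_am, D.symm.lb_am⟩
  lb := D.lb_GG
  grad := D.ae_point.mono fun _ h hx => (h hx).1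
  weak _ h1 h2 h3 h4 := weak_TLm D.sol D.op D.scu D.lb_GG
    (D.ae_point.mono fun _ h hx _ => (h hx).2) h1 h2 h3 h4

omit D

/-! ### the amplification factors -/



/-- the fraction `θ = cw H(p) / U ∈ [0,1]` of the side `p` -/
def th (H : ℝ → ℝ) (k0 Umin : ℝ) (p q : EE n → ℝ) (x : EE n) : ℝ :=
  cw k0 Umin (H (p x)) (H (q x)) * H (p x) / UU H k0 Umin p q x





end

end Crest.Agent.N067.W
end

-- ▼ part N067/W/Core
section

/-!
# Row 67, block W (helper47): the two integral identities of the master inequality.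

`Dom` = multipliers dominated by an integrable weight; `Dom.weak` (I1), `Dom.hardy` (I2);
`ae_grad_comp` = chain rule off a countable set; `Mul.dom`, `Mul.grad` = the multiplier
`g(a) W² ch²`; `lip_cut`, `grad_cut` = the cut `ST (1 - (|d| - Th))`.
-/

set_option autoImplicit false

open MeasureTheory Laplacian InnerProductSpace Topology Filter Set Metric
open scoped RealInnerProductSpace ContDiff Gradient NNReal

namespace Crest.Agent.N067.W

open Crest.Agent.R077 V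

noncomputable section

variable {n : ℕ} {Ω S : Set (EE n)} {a u m w G W ch v : EE n → ℝ} {x : EE n}

/-! ### the chain rule almost everywhere -/

theorem ll_comp' {J : Set ℝ} {g : ℝ → ℝ} (ha : LocallyLipschitzOn Ω a) (hJ : MapsTo a Ω J)
    (hg : LocallyLipschitzOn J g) : LocallyLipschitzOn Ω fun x => g (a x) := by
  intro x hx
  obtain ⟨K, t, ht, h⟩ := ha hx
  obtain ⟨K', t', ht', h'⟩ := hg (hJ hx)
  exact ⟨K' * K, t ∩ a ⁻¹' t',
    inter_mem ht ((ha.continuousOn x hx).tendsto_nhdsWithin hJ ht'),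
    h'.comp (h.mono inter_subset_left) fun _ hy => hy.2⟩

/-- the gradient vanishes almost everywhere on a level set -/
theorem ae_level (hΩ : IsOpen Ω) (ha : LocallyLipschitzOn Ω a) (c : ℝ) :
    ∀ᵐ x, x ∈ Ω → a x = c → ∇ a x = 0 := by
  have hm : LocallyLipschitzOn Ω fun x => max (a x) c :=
    ll_lip ha (F := fun y : ℝ => max y c) (LipschitzWith.id.max_const c)
  filter_upwards [ae_diff hΩ ha, ae_diff hΩ hm] with x h1 h2 hx hc
  have e1 := fderiv_touch (h2 hx) (h1 hx) (by simp [hc]) (Eventually.of_forall fun y =>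
    le_max_left (a y) c)
  have e2 := fderiv_touch (f := fun _ => c) (h2 hx) (differentiableAt_const c) (by simp [hc])
    (Eventually.of_forall fun y => le_max_right (a y) c)
  rw [gradient, e1, ← e2]
  simp

theorem grad_comp {g : ℝ → ℝ} {g' : ℝ} (ha : DifferentiableAt ℝ a x) (hg : HasDerivAt g g' (a x)) :
    ∇ (fun y => g (a y)) x = g' • ∇ a x := ext_inner_right ℝ fun z => by
  rw [real_inner_smul_left, inner_grad, inner_grad, show fderiv ℝ (fun y => g (a y)) x = _ from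
    (hg.comp_hasFDerivAt x ha.hasFDerivAt).fderiv]
  rfl

/-- **chain rule** for a locally Lipschitz `g` with a derivative off a countable set -/
theorem ae_grad_comp {J N : Set ℝ} {g g' : ℝ → ℝ} (hΩ : IsOpen Ω) (ha : LocallyLipschitzOn Ω a)
    (hJ : MapsTo a Ω J) (hg : LocallyLipschitzOn J g) (hN : N.Countable)
    (hd : ∀ y ∈ J, y ∉ N → HasDerivAt g (g' y) y) :
    ∀ᵐ x, x ∈ Ω → ∇ (fun y => g (a y)) x = g' (a x) • ∇ a x := by
  have h1 : ∀ᵐ x, ∀ c ∈ N, x ∈ Ω → a x = c → ∇ a x = 0 :=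
    (ae_ball_iff hN).2 fun c _ => ae_level hΩ ha c
  have h2 : ∀ᵐ x, ∀ c ∈ N, x ∈ Ω → g (a x) = g c → ∇ (fun y => g (a y)) x = 0 :=
    (ae_ball_iff hN).2 fun c _ => ae_level hΩ (ll_comp' ha hJ hg) (g c)
  filter_upwards [h1, h2, ae_diff hΩ ha] with x h1 h2 h3 hx
  by_cases h : a x ∈ N
  · rw [h1 _ h hx rfl, h2 _ h hx rfl, smul_zero]
  · exact grad_comp (h3 hx) (hd _ (hJ hx) h)

/-! ### dominated multipliers -/

/-- a multiplier carried by the closed set `S ⊆ Ω` and dominated by the integrable weight `w` -/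
structure Dom (Ω S : Set (EE n)) (w m : EE n → ℝ) : Prop where
  op : IsOpen Ω
  cl : IsClosed S
  sub : S ⊆ Ω
  lip : LocallyLipschitzOn univ m
  nonneg : ∀ x, 0 ≤ m x
  zero : ∀ x ∉ S, m x = 0
  int : Integrable w
  le : ∀ x, m x ≤ w x
  grad : ∀ᵐ x, ‖∇ m x‖ ≤ w x

theorem Dom.cont (h : Dom Ω S w m) : Continuous m := continuousOn_univ.1 h.lip.continuousOn

theorem Dom.integrable (h : Dom Ω S w m) : Integrable m :=
  h.int.mono' h.cont.aestronglyMeasurable (ae_of_all _ fun x => by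
    rw [Real.norm_of_nonneg (h.nonneg x)]; exact h.le x)

theorem Dom.ev (h : Dom Ω S w m) (hx : x ∉ S) : m =ᶠ[𝓝 x] fun _ => 0 := by
  filter_upwards [h.cl.isOpen_compl.mem_nhds hx] with y hy using h.zero y hy

theorem Dom.grad_zero (h : Dom Ω S w m) (hx : x ∉ S) : ∇ m x = 0 := by
  rw [grad_congr (h.ev hx)]; simp

theorem Dom.tsupport_sub (h : Dom Ω S w m) : tsupport m ⊆ S :=
  closure_minimal (fun x hx => by_contra fun h1 => hx (h.zero x h1)) h.cl

theorem psi_sq_le (hv : Sol v) (x : EE n) : psi v x ^ 2 ≤ 1 :=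
  pow_le_one₀ (hv.psi_pos x).le (psi_le_one v x)

/-- a function which vanishes off `S`, is measurable on `Ω` and is dominated on `S` -/
theorem Dom.integrable_of (h : Dom Ω S w m) {f : EE n → ℝ} {C : ℝ}
    (hf : AEStronglyMeasurable f (volume.restrict Ω)) (h0 : ∀ x ∉ S, f x = 0)
    (hb : ∀ᵐ x, x ∈ S → |f x| ≤ C * w x) : Integrable f := by
  have e : f = S.indicator f := funext fun x => by
    by_cases hx : x ∈ S
    · rw [indicator_of_mem hx]
    · rw [indicator_of_notMem hx, h0 x hx]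
  rw [e, integrable_indicator_iff h.cl.measurableSet]
  refine ((h.int.const_mul C).integrableOn (s := S)).mono'
    (hf.mono_measure (Measure.restrict_mono h.sub le_rfl)) ?_
  exact (ae_restrict_iff' h.cl.measurableSet).2 hb

/-- **(I1)** the weak inequality for a dominated multiplier -/
theorem Dom.weak (h : Dom Ω S w m) (hv : Sol v) (hG : AEStronglyMeasurable G (volume.restrict Ω))
    {C : ℝ} (hb : ∀ᵐ x, x ∈ S → ‖∇ u x‖ ≤ C ∧ |G x| ≤ C)
    (hw : ∀ ζ : EE n → ℝ, LocallyLipschitzOn Ω ζ → (∀ x, 0 ≤ ζ x) → HasCompactSupport ζ →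
      tsupport ζ ⊆ Ω → ∫ x, ζ x * G x * psi v x ^ 2 ≤ -∫ x, gin u ζ x * psi v x ^ 2) :
    Integrable (fun x => psi v x ^ 2 * (m x * G x + ⟪∇ u x, ∇ m x⟫)) ∧
      ∫ x, psi v x ^ 2 * (m x * G x + ⟪∇ u x, ∇ m x⟫) ≤ 0 := by
  obtain ⟨η, C', hC, hη, hs, hb', hp, he⟩ := Ker.exists_cutoff n
  have hη1 : ∀ k, ContDiff ℝ 1 (η k) := fun k => contDiff_infty.1 (hη k) 1
  have cψ : Continuous fun x => psi v x ^ 2 := hv.psi_sm.continuous.pow 2
  have hψ : ∀ x, |psi v x ^ 2| ≤ 1 := fun x => by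
    rw [abs_of_nonneg (sq_nonneg _)]; exact psi_sq_le hv x
  have w0 : ∀ x, 0 ≤ w x := fun x => (h.nonneg x).trans (h.le x)
  have i1 : Integrable fun x => m x * G x * psi v x ^ 2 := by
    refine h.integrable_of (C := C) ((h.cont.aestronglyMeasurable.mul hG).mul
      cψ.aestronglyMeasurable) (fun x hx => by rw [h.zero x hx, zero_mul, zero_mul]) ?_
    filter_upwards [hb] with x h1 hx
    rw [abs_mul, abs_mul, abs_of_nonneg (h.nonneg x)]
    refine (mul_le_of_le_one_right (mul_nonneg (h.nonneg x) (abs_nonneg _)) (hψ x)).trans ?_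
    rw [mul_comm]
    exact mul_le_mul (h1 hx).2 (h.le x) (h.nonneg x) ((abs_nonneg _).trans (h1 hx).2)
  have i2 : Integrable fun x => gin u m x * psi v x ^ 2 := by
    refine h.integrable_of (C := C) ((measurable_gin u m).aestronglyMeasurable.mul
      cψ.aestronglyMeasurable) (fun x hx => by simp [gin_eq, h.grad_zero hx]) ?_
    filter_upwards [hb, h.grad] with x h1 h2 hx
    rw [abs_mul]
    exact (mul_le_of_le_one_right (abs_nonneg _) (hψ x)).trans ((abs_gin_le u m x).trans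
      (mul_le_mul (h1 hx).1 h2 (norm_nonneg _) ((norm_nonneg _).trans (h1 hx).1)))
  have i3 : ∀ i, Integrable fun x => m x * pdv i u x * psi v x ^ 2 := fun i => by
    refine h.integrable_of (C := C) ((h.cont.aestronglyMeasurable.mul
      (measurable_pdv u i).aestronglyMeasurable).mul cψ.aestronglyMeasurable)
      (fun x hx => by rw [h.zero x hx, zero_mul, zero_mul]) ?_
    filter_upwards [hb] with x h1 hx
    rw [abs_mul, abs_mul, abs_of_nonneg (h.nonneg x)]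
    refine (mul_le_of_le_one_right (mul_nonneg (h.nonneg x) (abs_nonneg _)) (hψ x)).trans ?_
    rw [mul_comm, ← grad_apply]
    exact mul_le_mul ((PiLp.norm_apply_le _ i).trans (h1 hx).1) (h.le x) (h.nonneg x)
      ((norm_nonneg _).trans (h1 hx).1)
  have e0 : (fun x => psi v x ^ 2 * (m x * G x + ⟪∇ u x, ∇ m x⟫)) =
      fun x => m x * G x * psi v x ^ 2 + gin u m x * psi v x ^ 2 :=
    funext fun x => by rw [gin_eq]; ring
  rw [e0]
  refine ⟨i1.add i2, ?_⟩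
  have bη : ∀ k x, ‖η k x‖ ≤ 1 := fun k x => by
    rw [Real.norm_of_nonneg (hb' k x).1]; exact (hb' k x).2
  have j : ∀ {f : EE n → ℝ}, Integrable f → ∀ k, Integrable fun x => f x * η k x := fun hf k =>
    hf.mul_bdd (c := 1) (hη k).continuous.aestronglyMeasurable (ae_of_all _ (bη k))
  have j3 : ∀ k i, Integrable fun x => m x * pdv i u x * psi v x ^ 2 * pdv i (η k) x :=
    fun k i => (i3 i).mul_bdd (c := C') (St.continuous_pdv (hη1 k) i).aestronglyMeasurable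
      (ae_of_all _ fun x => hp k i x)
  have h1 : ∀ k, ∫ x, (m x * G x * psi v x ^ 2 + gin u m x * psi v x ^ 2) * η k x ≤
      -∑ i, ∫ x, m x * pdv i u x * psi v x ^ 2 * pdv i (η k) x := by
    intro k
    have h2 := hw (fun x => m x * η k x)
      (ll_mul (h.lip.mono (subset_univ _)) (ll_of_contDiffAt fun x _ => (hη1 k).contDiffAt))
      (fun x => mul_nonneg (h.nonneg x) (hb' k x).1) (hs k).mul_left
      ((tsupport_mul_subset_left.trans h.tsupport_sub).trans h.sub)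
    have h3 : ∫ x, gin u (fun x => m x * η k x) x * psi v x ^ 2 =
        (∫ x, gin u m x * psi v x ^ 2 * η k x) +
          ∑ i, ∫ x, m x * pdv i u x * psi v x ^ 2 * pdv i (η k) x := by
      rw [← integral_finsetSum _ fun i _ => j3 k i, ← integral_add (j i2 k)
        (integrable_finsetSum _ fun i _ => j3 k i)]
      refine integral_congr_ae ?_
      filter_upwards [ae_diff isOpen_univ h.lip] with x hd
      rw [gin_mul_right (hd (mem_univ x)) ((hη1 k).differentiable (by simp) x), add_mul,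
        show gin u (η k) x = ∑ i, pdv i u x * pdv i (η k) x from rfl, Finset.mul_sum,
        Finset.sum_mul]
      congr 1
      · ring
      · exact Finset.sum_congr rfl fun i _ => by ring
    simp only [add_mul]
    rw [integral_add (j i1 k) (j i2 k)]
    have h4 : ∫ x, m x * G x * psi v x ^ 2 * η k x = ∫ x, m x * η k x * G x * psi v x ^ 2 :=
      integral_congr_ae (ae_of_all _ fun x => by ring)
    linarith
  have h2 : Tendsto (fun k => ∫ x, (m x * G x * psi v x ^ 2 + gin u m x * psi v x ^ 2) * η k x)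
      atTop (𝓝 (∫ x, (m x * G x * psi v x ^ 2 + gin u m x * psi v x ^ 2))) := by
    refine tendsto_integral_of_dominated_convergence _ (fun k => (j (i1.add i2) k).1)
      (i1.add i2).norm (fun k => ae_of_all _ fun x => ?_) (ae_of_all _ fun x => ?_)
    · rw [norm_mul]
      exact mul_le_of_le_one_right (norm_nonneg _) (bη k x)
    · refine tendsto_const_nhds.congr' ?_
      filter_upwards [he x] with k hk
      rw [hk.eq_of_nhds, mul_one]
  have h3 : ∀ i, Tendsto (fun k => ∫ x, m x * pdv i u x * psi v x ^ 2 * pdv i (η k) x) atTop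
      (𝓝 0) := by
    intro i
    have := tendsto_integral_of_dominated_convergence (μ := volume)
      (F := fun k x => m x * pdv i u x * psi v x ^ 2 * pdv i (η k) x) (f := fun _ => 0)
      (fun x => ‖m x * pdv i u x * psi v x ^ 2‖ * C')
      (fun k => (j3 k i).1) ((i3 i).norm.mul_const C') (fun k => ae_of_all _ fun x => ?_)
      (ae_of_all _ fun x => ?_)
    · simpa using this
    · rw [norm_mul]
      exact mul_le_mul_of_nonneg_left (hp k i x) (norm_nonneg _)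
    · refine tendsto_const_nhds.congr' ?_
      filter_upwards [he x] with k hk
      rw [pdv_congr hk, pdv_const, mul_zero]
  have h4 : Tendsto (fun k => -∑ i, ∫ x, m x * pdv i u x * psi v x ^ 2 * pdv i (η k) x) atTop
      (𝓝 0) := by simpa using (tendsto_finsetSum Finset.univ fun i _ => h3 i).neg
  exact le_of_tendsto_of_tendsto' h2 h4 h1


theorem measurable_grad (f : EE n → ℝ) : Measurable (∇ f) :=
  (InnerProductSpace.toDual ℝ (EE n)).symm.continuous.measurable.comp (measurable_fderiv ℝ f)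



/-! ### the multiplier `g(a) W² ch²` -/

/-- extension by zero -/
theorem ll_indicator (hΩ : IsOpen Ω) (hS : IsClosed S) (hs : S ⊆ Ω) (hm : LocallyLipschitzOn Ω m)
    (h0 : ∀ x ∈ Ω, x ∉ S → m x = 0) : LocallyLipschitzOn univ (Ω.indicator m) := by
  intro x _
  rw [nhdsWithin_univ]
  by_cases hx : x ∈ Ω
  · obtain ⟨K, t, ht, h⟩ := hm hx
    rw [hΩ.nhdsWithin_eq hx] at ht
    exact ⟨K, t ∩ Ω, inter_mem ht (hΩ.mem_nhds hx), fun y hy z hz => by
      rw [indicator_of_mem hy.2, indicator_of_mem hz.2]; exact h hy.1 hz.1⟩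
  · have e : ∀ y ∉ S, Ω.indicator m y = 0 := fun y hy => by
      by_cases h : y ∈ Ω
      · rw [indicator_of_mem h, h0 y h hy]
      · rw [indicator_of_notMem h]
    exact ⟨0, Sᶜ, hS.isOpen_compl.mem_nhds fun h => hx (hs h), fun y hy z hz => by
      rw [e y hy, e z hz]; simp⟩

/-- the multiplier -/
def mm (Ω : Set (EE n)) (g : ℝ → ℝ) (a W ch : EE n → ℝ) : EE n → ℝ :=
  Ω.indicator fun x => g (a x) * W x ^ 2 * ch x ^ 2

/-- hypotheses on the multiplier: `a` is `U` (`J = Ioi 0`) or `log U` (`J = univ`) -/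
structure Mul (Ω S : Set (EE n)) (J : Set ℝ) (g g' : ℝ → ℝ) (a W ch : EE n → ℝ) (C : ℝ) :
    Prop where
  op : IsOpen Ω
  cl : IsClosed S
  sub : S ⊆ Ω
  la : LocallyLipschitzOn Ω a
  maps : MapsTo a Ω J
  lg : LocallyLipschitzOn J g
  dg : ∃ N : Set ℝ, N.Countable ∧ ∀ y ∈ J, y ∉ N → HasDerivAt g (g' y) y
  g0 : ∀ y ∈ J, 0 ≤ g y
  cW : ContDiff ℝ 1 W
  iW : Integrable fun x => W x ^ 2
  bW : ∀ x, ‖∇ W x‖ ≤ C * |W x|
  lc : LocallyLipschitzOn Ω ch
  c1 : ∀ x, |ch x| ≤ 1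
  zero : ∀ x ∈ Ω, x ∉ S → g (a x) * ch x = 0
  bg : ∀ x ∈ S, g (a x) ≤ C
  bd : ∀ᵐ x, x ∈ S → |g' (a x)| * ‖∇ a x‖ ≤ C ∧ ‖∇ ch x‖ ≤ C

variable {J : Set ℝ} {g g' : ℝ → ℝ} {C : ℝ}

theorem mm_of_mem (hx : x ∈ Ω) : mm Ω g a W ch x = g (a x) * W x ^ 2 * ch x ^ 2 :=
  indicator_of_mem hx _

theorem mm_of_notMem (hx : x ∉ Ω) : mm Ω g a W ch x = 0 := indicator_of_notMem hx _

theorem Mul.lW (h : Mul Ω S J g g' a W ch C) : LocallyLipschitzOn Ω W :=
  ll_of_contDiffAt fun _ _ => h.cW.contDiffAt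

/-- the gradient of the multiplier -/
theorem Mul.grad (h : Mul Ω S J g g' a W ch C) : ∀ᵐ x, x ∈ Ω → ∇ (mm Ω g a W ch) x =
    (g' (a x) * W x ^ 2 * ch x ^ 2) • ∇ a x + (2 * g (a x) * W x * ch x ^ 2) • ∇ W x +
      (2 * g (a x) * W x ^ 2 * ch x) • ∇ ch x := by
  obtain ⟨N, hN, hd⟩ := h.dg
  filter_upwards [ae_grad_comp h.op h.la h.maps h.lg hN hd,
    ae_diff h.op (ll_comp' h.la h.maps h.lg), ae_diff h.op h.lc] with x h1 h2 h3 hx
  have dW := h.cW.differentiable (by simp) x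
  have e : mm Ω g a W ch =ᶠ[𝓝 x] fun y => g (a y) * W y ^ 2 * ch y ^ 2 := by
    filter_upwards [h.op.mem_nhds hx] with y hy using mm_of_mem hy
  rw [grad_congr e, grad_mul ((h2 hx).fun_mul (dW.fun_pow 2)) ((h3 hx).fun_pow 2),
    grad_mul (h2 hx) (dW.fun_pow 2), h1 hx, grad_comp dW (hasDerivAt_pow 2 _),
    grad_comp (h3 hx) (hasDerivAt_pow 2 _)]
  push_cast
  module

/-- the multiplier is dominated by a multiple of `W²` -/
theorem Mul.dom (h : Mul Ω S J g g' a W ch C) :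
    Dom Ω S (fun x => (|C| + 4 * C ^ 2) * W x ^ 2) (mm Ω g a W ch) := by
  have z : ∀ x ∈ Ω, x ∉ S → g (a x) * W x ^ 2 * ch x ^ 2 = 0 := fun x hx h1 => by
    linear_combination W x ^ 2 * ch x * h.zero x hx h1
  have z' : ∀ x ∉ S, mm Ω g a W ch x = 0 := fun x hx => by
    by_cases h1 : x ∈ Ω
    · rw [mm_of_mem h1, z x h1 hx]
    · exact mm_of_notMem h1
  have c2 : ∀ x, ch x ^ 2 ≤ 1 := fun x => by
    rw [← sq_abs]; exact pow_le_one₀ (abs_nonneg _) (h.c1 x)
  have hC := le_abs_self C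
  refine ⟨h.op, h.cl, h.sub, ll_indicator h.op h.cl h.sub (ll_mul (ll_mul
    (ll_comp' h.la h.maps h.lg) (ll_comp h.lW (F := fun y => y ^ 2) fun _ _ => by fun_prop))
    (ll_comp h.lc (F := fun y => y ^ 2) fun _ _ => by fun_prop)) z, fun x => ?_, z',
    h.iW.const_mul _, fun x => ?_, ?_⟩
  · by_cases hx : x ∈ Ω
    · rw [mm_of_mem hx]
      have := h.g0 _ (h.maps hx)
      positivity
    · rw [mm_of_notMem hx]
  · by_cases hx : x ∈ S
    · have := h.g0 _ (h.maps (h.sub hx))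
      rw [mm_of_mem (h.sub hx)]
      refine (mul_le_of_le_one_right (by positivity) (c2 x)).trans ?_
      gcongr
      nlinarith [h.bg x hx, sq_nonneg C]
    · rw [z' x hx]; positivity
  · filter_upwards [h.grad, h.bd] with x h1 h2
    by_cases hx : x ∈ S
    · obtain ⟨b2, b3⟩ := h2 hx
      have b1 := h.bg x hx
      have b0 := h.g0 _ (h.maps (h.sub hx))
      have b4 := h.bW x
      have b5 := h.c1 x
      have C0 : 0 ≤ C := b0.trans b1
      rw [h1 (h.sub hx), show |C| + 4 * C ^ 2 = C + 2 * C * C + 2 * C * C by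
        rw [abs_of_nonneg C0]; ring, add_mul, add_mul]
      refine norm_add₃_le.trans (le_trans (add_le_add (add_le_add ?_ ?_) ?_)
        (le_of_eq (by rw [← sq_abs (W x)]))) <;>
        simp only [norm_smul, Real.norm_eq_abs, abs_mul, abs_pow, abs_two, abs_of_nonneg b0]
      · calc _ = |g' (a x)| * ‖∇ a x‖ * |W x| ^ 2 * |ch x| ^ 2 := by ring
          _ ≤ C * |W x| ^ 2 * 1 ^ 2 := by gcongr
          _ = _ := by ring
      · calc _ ≤ 2 * C * |W x| * 1 ^ 2 * (C * |W x|) := by gcongr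
          _ = _ := by ring
      · calc _ ≤ 2 * C * |W x| ^ 2 * 1 * C := by gcongr
          _ = _ := by ring
    · have e : mm Ω g a W ch =ᶠ[𝓝 x] fun _ => 0 := by
        filter_upwards [h.cl.isOpen_compl.mem_nhds hx] with y hy using z' y hy
      rw [grad_congr e]
      simp only [gradient_fun_const, norm_zero]
      positivity

/-! ### the cut -/

theorem lip_cut (hv : Sol v) {Th : EE n → ℝ} (hT : LocallyLipschitzOn Ω Th) :
    LocallyLipschitzOn Ω fun x => Real.smoothTransition (1 - (|dd v x| - Th x)) := by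
  have h1 : LocallyLipschitzOn Ω fun x => |dd v x| :=
    ll_lip (ll_of_contDiffAt fun _ _ => (contDiff_infty.1 hv.dd_sm 1).contDiffAt)
      (F := fun y : ℝ => |y|) lipschitzWith_one_norm
  exact ll_comp (F := fun z : ℝ × ℝ => Real.smoothTransition (1 - (z.1 - z.2))) (ll_prod h1 hT)
    fun _ _ => Real.smoothTransition.contDiff.contDiffAt.comp _ (by fun_prop)

theorem abs_cut (y : ℝ) : |Real.smoothTransition y| ≤ 1 := by
  rw [abs_of_nonneg (Real.smoothTransition.nonneg y)]; exact Real.smoothTransition.le_one y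

theorem grad_cut (hv : Sol v) (hΩ : IsOpen Ω) {Th : EE n → ℝ} (hT : LocallyLipschitzOn Ω Th) :
    ∀ᵐ x, x ∈ Ω → ∇ (fun x => Real.smoothTransition (1 - (|dd v x| - Th x))) x =
      deriv Real.smoothTransition (1 - (|dd v x| - Th x)) •
        (∇ Th x - (SignType.sign (dd v x) : ℝ) • ∇ (dd v) x) := by
  have l1 : LocallyLipschitzOn Ω (dd v) :=
    ll_of_contDiffAt fun _ _ => (contDiff_infty.1 hv.dd_sm 1).contDiffAt
  have l2 : LocallyLipschitzOn univ fun y : ℝ => |y| :=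
    (lipschitzWith_one_norm (E := ℝ)).locallyLipschitz.locallyLipschitzOn
  filter_upwards [ae_grad_comp (g' := fun y => (SignType.sign y : ℝ)) hΩ l1 (mapsTo_univ _ _) l2
    (countable_singleton 0) fun y _ hy => hasDerivAt_abs hy,
    ae_diff hΩ (ll_comp' l1 (mapsTo_univ _ _) l2), ae_diff hΩ hT] with x h1 h2 h3 hx
  rw [grad_comp (a := fun x => 1 - (|dd v x| - Th x)) (((h2 hx).fun_sub (h3 hx)).const_sub 1)
    ((Real.smoothTransition.contDiff (n := 1)).differentiable (by simp) _).hasDerivAt,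
    grad_sub (differentiableAt_const _) ((h2 hx).fun_sub (h3 hx)), grad_sub (h2 hx) (h3 hx), h1 hx]
  simp

theorem exists_deriv_ST : ∃ A : ℝ, 0 ≤ A ∧ ∀ y, |deriv Real.smoothTransition y| ≤ A := by
  have hc : Continuous (deriv Real.smoothTransition) :=
    (Real.smoothTransition.contDiff (n := 1)).continuous_deriv le_rfl
  obtain ⟨A, hA⟩ := (isCompact_Icc (a := (0 : ℝ)) (b := 1)).exists_bound_of_continuousOn
    hc.continuousOn
  have A0 : 0 ≤ A := (norm_nonneg _).trans (hA 0 ⟨le_rfl, zero_le_one⟩)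
  refine ⟨A, A0, fun y => ?_⟩
  rcases lt_or_ge y 0 with h | h
  · rw [(show Real.smoothTransition =ᶠ[𝓝 y] fun _ => 0 from (eventually_lt_nhds h).mono
      fun z hz => Real.smoothTransition.zero_of_nonpos hz.le).deriv_eq]
    simpa using A0
  rcases le_or_gt y 1 with h1 | h1
  · exact hA y ⟨h, h1⟩
  · rw [(show Real.smoothTransition =ᶠ[𝓝 y] fun _ => 1 from (eventually_gt_nhds h1).mono
      fun z hz => Real.smoothTransition.one_of_one_le hz.le).deriv_eq]
    simpa using A0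

end

end Crest.Agent.N067.W
end

-- ▼ part N067/W/Dat

/-!
# Row 67, block W (helper47): the weak inequality on `M.Dat`, in terms of `rp`, `rm`.

`thD D`, `thD D.flip` = the coefficients of the two sides, `uD D = log U`, `GD` = the lower bound
of `Δ_μ u`.  Input `Br`, output `Br.out : BrOut`.
-/

set_option autoImplicit false

open MeasureTheory Laplacian InnerProductSpace Topology Filter Set Metric
open scoped RealInnerProductSpace ContDiff Gradient NNReal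

namespace Crest.Agent.N067.W

open Crest.Agent.R077 V M

noncomputable section

variable {n : ℕ} {D : Dat n} {x : EE n}

/-- **(I2), tangential form** -/
theorem dom_hardyT (n : ℕ) : ∃ C : ℝ, 0 ≤ C ∧ ∀ (I : Finset (Fin n)) (c : EE n) (r0 : ℝ)
    (v w m : EE n → ℝ) (Ω S : Set (EE n)), Sol v → 0 < r0 → Dom Ω S w m →
    Integrable (fun x => psi v x ^ 2 * (H.tf v x (∇ m x) (∇ (H.lr I c r0) x) + m x *
      (H.trT v I x / rh I c r0 x ^ 2 - 2 * H.tf v x (∇ (H.lr I c r0) x) (∇ (H.lr I c r0) x) -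
        C * tt v x / rh I c r0 x))) ∧
    ∫ x, psi v x ^ 2 * (H.tf v x (∇ m x) (∇ (H.lr I c r0) x) + m x *
      (H.trT v I x / rh I c r0 x ^ 2 - 2 * H.tf v x (∇ (H.lr I c r0) x) (∇ (H.lr I c r0) x) -
        C * tt v x / rh I c r0 x)) ≤ 0 := by
  obtain ⟨C, C0, hC⟩ := H.hardyT n
  refine ⟨C, C0, fun I c r0 v w m Ω S hv hr h => ?_⟩
  have ig : Integrable fun x => ‖∇ m x‖ := h.int.mono'
    (measurable_grad m).norm.aestronglyMeasurable (h.grad.mono fun x hx => by rwa [norm_norm])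
  refine (fun hi => ⟨hi, hC I c r0 v m _ hv hr h.lip h.nonneg h.integrable ig hi
    (ae_of_all _ fun x _ => le_rfl)⟩) ?_
  have mtt := (hv.tt_cd 0).continuous.measurable
  have mr := (H.cd_rh (I := I) (c := c) hr).continuous.measurable
  have mt : Measurable (H.trT v I) := ((measurable_const.sub mtt).mul_const _).sub
    (Finset.measurable_sum _ fun i _ => (measurable_pdv _ i).pow_const 2)
  have mf : ∀ {p q : EE n → EE n}, Measurable p → Measurable q →
      Measurable fun x => H.tf v x (p x) (q x) := fun hp hq =>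
    ((measurable_const.sub mtt).mul (hp.inner hq)).sub
      (((measurable_grad _).inner hp).mul ((measurable_grad _).inner hq))
  refine (h.int.const_mul (2 * r0⁻¹ + ((n + 1) / r0 ^ 2 + 4 * (r0⁻¹ * r0⁻¹) + C * 1 / r0))).mono'
    (((hv.psi_sm.continuous.pow 2).measurable.mul ((mf (measurable_grad _)
      (measurable_grad _)).add (h.cont.measurable.mul (((mt.div (mr.pow_const 2)).sub ((mf
          (measurable_grad _) (measurable_grad _)).const_mul 2)).sub
            ((mtt.const_mul C).div mr))))).aestronglyMeasurable) ?_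
  filter_upwards [h.grad] with x hx
  have r1 := le_rh (r0 := r0) I c x
  have hl : ‖∇ (H.lr I c r0) x‖ ≤ r0⁻¹ := (H.norm_grad_lr hr x).trans (inv_anti₀ hr r1)
  have w0 : 0 ≤ w x := (h.nonneg x).trans (h.le x)
  have b2 : |H.trT v I x / rh I c r0 x ^ 2| ≤ (n + 1) / r0 ^ 2 := by
    rw [abs_div, abs_of_nonneg (sq_nonneg (rh I c r0 x))]
    have := H.abs_trT_le (I := I) hv x
    gcongr
  have b3 : |2 * H.tf v x (∇ (H.lr I c r0) x) (∇ (H.lr I c r0) x)| ≤ 4 * (r0⁻¹ * r0⁻¹) := by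
    have a1 := H.abs_tf_le hv x (∇ (H.lr I c r0) x) (∇ (H.lr I c r0) x)
    have a2 := mul_le_mul hl hl (norm_nonneg _) (inv_pos.2 hr).le
    rw [abs_mul, abs_two]; linarith
  have b4 : |H.tf v x (∇ m x) (∇ (H.lr I c r0) x)| ≤ 2 * r0⁻¹ * w x := by
    have a1 := H.abs_tf_le hv x (∇ m x) (∇ (H.lr I c r0) x)
    have a2 := mul_le_mul hx hl (norm_nonneg _) w0
    linarith
  have b5 : |C * tt v x / rh I c r0 x| ≤ C * 1 / r0 := by
    have t0 := hv.tt_nonneg x
    have t1 := tt_le_one v x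
    rw [abs_of_nonneg (div_nonneg (mul_nonneg C0 t0) (hr.le.trans r1))]
    gcongr
  rw [Real.norm_eq_abs, abs_mul, abs_of_nonneg (sq_nonneg _), add_mul]
  refine (mul_le_of_le_one_left (abs_nonneg _) (psi_sq_le hv x)).trans
    ((abs_add_le _ _).trans (add_le_add b4 ?_))
  rw [abs_mul, abs_of_nonneg (h.nonneg x), mul_comm]
  exact mul_le_mul ((abs_sub _ _).trans (add_le_add ((abs_sub _ _).trans (add_le_add b2 b3)) b5))
    (h.le x) (h.nonneg x) (by positivity)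

/-! ### the flip -/

theorem flip_rm (D : Dat n) : D.flip.rm = D.rp := by
  rw [Dat.rm, Dat.rp]; exact congrArg (fun v => rt D.β v D.ρm) (ng_ng D.v)

theorem flip_Om (hv : Sol D.v) : D.flip.Om = D.Om := Val_ng hv _ _ _

theorem flip_U (D : Dat n) : D.flip.U = D.U := funext fun x => by
  rw [Dat.U, flip_rm, add_comm (D.flip.h _), max_comm (D.flip.h _)]; rfl

/-! ### definitions -/

open Classical in
/-- the coefficient of the `+` side: `∇ log U = - thD D • ∇ rp - thD D.flip • ∇ rm` -/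
def thD (D : Dat n) (x : EE n) : ℝ := if x ∈ D.Om then
  cw D.κ0 0 (D.h (D.rp x)) (D.h (D.rm x)) * |D.hd (D.rp x)| / D.U x else 0

/-- `u = log U` -/
def uD (D : Dat n) (x : EE n) : ℝ := Real.log (D.U x)

open Classical in
/-- the potential of the `+` side -/
def potD (D : Dat n) (ε ηt C : ℝ) (x : EE n) : ℝ :=
  (if D.rp x * Bn D.v x ≤ ηt then 0 else (1 + ε) * hsq (dd D.v) x) + C * tt D.v x ^ 2

/-- the lower bound of `Δ_μ u` -/
def GD (D : Dat n) (kap : ℝ → ℝ) (ε ηt C η : ℝ) (x : EE n) : ℝ :=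
  -(thD D x * D.rp x * potD D ε ηt C x + thD D.flip x * D.rm x * potD D.flip ε ηt C x)
    + ((1 - η) * kap (D.U x) / ((1 + ε + D.κ0) * (1 + D.κ0)) - 1) * ‖∇ (uD D) x‖ ^ 2
    + η * D.κ0 / 4 * (thD D x * ‖∇ D.rp x‖ ^ 2 / D.rp x + thD D.flip x * ‖∇ D.rm x‖ ^ 2 / D.rm x)

/-- the second order inequality at the active points of the `+` side -/
def SupD (D : Dat n) (ε ηt C : ℝ) : Prop := ∀ x ∈ D.Om, D.rp x * ph0 D.v x ≤ 2 / D.κ0 →
  DifferentiableAt ℝ D.rp x → Sup D.β D.v D.ρm ε ηt C x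

theorem big_sup {β : Bo} {ε ηt C : ℝ} (h : XAt n β ε ηt C) (K lam κ0 : ℝ) :
    Big n K lam κ0 β fun D => SupD D ε ηt C ∧ SupD D.flip ε ηt C := by
  refine big_M fun C2 => ?_
  obtain ⟨M0, h0, h⟩ := h C2 (2 / κ0)
  refine ⟨M0, fun D C1 rs e1 e2 e3 hM ok => ?_⟩
  subst e1 e2 e3
  exact ⟨fun x hx h1 h2 => (h _ _ ok.pos x (Val_mono (by linarith) hM hx) h1 h2).1,
    fun x hx h1 h2 => (h _ _ (ps_ng ok.pos) x
      (Val_mono (by linarith) hM hx) h1 h2).1⟩

/-- the input of the bridge -/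
structure Br (D : Dat n) (H H1 H2 kap : ℝ → ℝ) (ε ηt C η : ℝ) : Prop where
  bas : D.Bas
  k0 : 0 < D.κ0
  k1 : D.κ0 < 1
  sp : SupD D ε ηt C
  sm : SupD D.flip ε ηt C
  hH : ∀ y, 0 < y → H y = D.h (1 / y)
  hH1 : ∀ y, 0 < y → H1 y = -(D.hd (1 / y) / y ^ 2)
  mhd : Measurable D.hd
  des : HDes H H1 H2
  e0 : 0 ≤ ε
  η1 : η ≤ 1
  e1 : ε ≤ η * D.κ0 / 4
  mkap : Measurable kap
  bkap : ∃ A, ∀ y, |kap y| ≤ A
  kato : ∀ a b, 0 < a → 0 < b → Kato H H1 H2 D.κ0 a b (kap (U0 D.κ0 (H a) (H b)))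

/-- the output of the bridge -/
structure BrOut (D : Dat n) (kap : ℝ → ℝ) (ε ηt C η : ℝ) : Prop where
  tp : D.Th' (thD D)
  tm : D.flip.Th' (thD D.flip)
  lp : LocallyLipschitzOn D.Om D.rp
  lm : LocallyLipschitzOn D.Om D.rm
  lU : LocallyLipschitzOn D.Om D.U
  lu : LocallyLipschitzOn D.Om (uD D)
  pos : ∀ x ∈ D.Om, 0 < D.U x
  gU : ∀ᵐ x, x ∈ D.Om → ∇ D.U x = D.U x • ∇ (uD D) x
  grad : ∀ᵐ x, x ∈ D.Om → ∇ (uD D) x = -(thD D x • ∇ D.rp x + thD D.flip x • ∇ D.rm x)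
  ms : AEStronglyMeasurable (GD D kap ε ηt C η) (volume.restrict D.Om)
  bd : ∃ A : ℝ, ∀ᵐ x, x ∈ D.Om → ‖∇ (uD D) x‖ ≤ A ∧ |GD D kap ε ηt C η x| ≤ A
  weak : ∀ ζ : EE n → ℝ, LocallyLipschitzOn D.Om ζ → (∀ x, 0 ≤ ζ x) → HasCompactSupport ζ →
    tsupport ζ ⊆ D.Om → ∫ x, ζ x * GD D kap ε ηt C η x * psi D.v x ^ 2
      ≤ -∫ x, gin (uD D) ζ x * psi D.v x ^ 2

variable {H H1 H2 kap : ℝ → ℝ} {ε ηt C η : ℝ}

theorem bas_flip (B : D.Bas) : D.flip.Bas := by
  have h1 := B.p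
  have h2 := B.m
  rw [← flip_Om B.sol] at h1 h2
  rw [← ng_ng D.v] at h1
  exact { B with
    pos := ps_ng B.pos
    ph := fun x => (B.ph x).trans_eq (ph0_ng _ x).symm
    p := h2
    m := h1 }

theorem Br.flip (R : Br D H H1 H2 kap ε ηt C η) : Br D.flip H H1 H2 kap ε ηt C η :=
  { R with
    bas := bas_flip R.bas
    sp := R.sm
    sm := by
      have : D.flip.flip = D := by rw [Dat.flip, Dat.flip]; simp only [ng_ng]
      rw [this]; exact R.sp }

theorem sd_lip {β : Bo} {v : EE n → ℝ} {ρm M : ℝ} {Ω : Set (EE n)} (h : Sd β v ρm M Ω)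
    (hΩ : IsOpen Ω) : LocallyLipschitzOn Ω (rt β v ρm) := by
  have := ll_comp (h.sc.locLip hΩ) (F := fun y : ℝ => y⁻¹) fun x hx =>
    contDiffAt_inv ℝ (inv_ne_zero (by linarith [h.eight hx]))
  simpa only [ph, inv_inv] using this

theorem lb_pot (B : D.Bas) : LB D.Om (potD D ε ηt C) := by
  classical
  have c1 : Continuous (hsq (dd D.v)) := B.sol.hsq_sm.continuous
  have c2 : ContinuousOn (fun x => D.rp x * Bn D.v x) D.Om :=
    (B.p.cont B.op).mul c1.sqrt.continuousOn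
  refine LB.add ⟨?_, fun K _ hK => ?_⟩
    (LB.of_cont B.op (continuous_const.mul (B.sol.tt_sm.continuous.pow 2)).continuousOn)
  · have m : Measurable fun z : ℝ × ℝ => if z.1 ≤ ηt then 0 else (1 + ε) * z.2 :=
      Measurable.ite (measurableSet_le (by fun_prop) measurable_const) measurable_const (by fun_prop)
    exact (m.comp_aemeasurable ((c2.aemeasurable B.op.measurableSet).prodMk
      c1.aemeasurable)).aestronglyMeasurable
  · obtain ⟨A, hA⟩ := hK.exists_bound_of_continuousOn (continuous_const.mul c1 :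
      Continuous fun x => (1 + ε) * hsq (dd D.v) x).continuousOn
    refine ⟨A, fun x hx => ?_⟩
    split_ifs
    · exact abs_zero.trans_le ((norm_nonneg _).trans (hA x hx))
    · exact hA x hx

namespace Br

variable (R : Br D H H1 H2 kap ε ηt C η)
include R

theorem rp_pos (hx : x ∈ D.Om) : 0 < D.rp x := by linarith [R.bas.rp8 hx]
theorem rm_pos (hx : x ∈ D.Om) : 0 < D.rm x := by linarith [R.bas.rm8 hx]

theorem H_inv {r : ℝ} (hr : 0 < r) : H r⁻¹ = D.h r := by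
  rw [R.hH _ (inv_pos.2 hr), one_div, inv_inv]

theorem H1_inv {r : ℝ} (hr : 0 < r) : H1 r⁻¹ = r ^ 2 * |D.hd r| := by
  have h1 := R.des.pos1 _ (inv_pos.2 hr)
  rw [R.hH1 _ (inv_pos.2 hr), one_div, inv_inv, inv_pow, div_inv_eq_mul] at h1 ⊢
  rw [abs_of_neg (by nlinarith [sq_pos_of_pos hr])]; ring

theorem h_pos {r : ℝ} (hr : 0 < r) : 0 < D.h r := R.H_inv hr ▸ R.des.pos _ (inv_pos.2 hr)

theorem side : Side D.v (ph D.β D.v D.ρm) D.Om ε (potD D ε ηt C)
    fun x => D.κ0 * ph D.β (ng D.v) D.ρm x ≤ ph D.β D.v D.ρm x := by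
  have B := R.bas
  have sup : ∀ x ∈ D.Om, D.κ0 * ph D.β (ng D.v) D.ρm x ≤ ph D.β D.v D.ρm x →
      DifferentiableAt ℝ (ph D.β D.v D.ρm) x → Sup D.β D.v D.ρm ε ηt C x := fun x hx h1 h2 => by
    have p0 := R.rp_pos hx
    have m0 := R.rm_pos hx
    refine R.sp x hx ?_ ?_
    · have h3 : D.κ0 * D.rp x ≤ D.rm x := by
        change D.κ0 * (D.rm x)⁻¹ ≤ (D.rp x)⁻¹ at h1
        rwa [← div_eq_mul_inv, ← one_div, div_le_div_iff₀ m0 p0, one_mul] at h1
      have h4 := B.min_le hx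
      rw [mul_one_div, le_div_iff₀ (B.ph x)] at h4
      have h5 : D.κ0 * D.rp x ≤ min (D.rp x) (D.rm x) := le_min (by nlinarith [R.k1]) h3
      rw [le_div_iff₀ R.k0]
      nlinarith [mul_le_mul_of_nonneg_right h5 (B.ph x).le]
    · have := h2.fun_inv (inv_pos.2 p0).ne'
      simp only [ph, inv_inv] at this
      exact this
  refine ⟨B.p.sc, fun x hx => inv_pos.2 (R.rp_pos hx), fun x hx a => ?_,
    fun x hx h1 h2 a => by linarith [(sup x hx h1 h2).psd a], fun x hx h1 h2 a e he => ?_⟩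
  · have h1 := hb_add_nonneg B.sol x a
    have h2 : phi (dd D.v) x ≤ 2 * ph D.β D.v D.ρm x := by
      rw [ph, ← div_eq_mul_inv]; exact (le_div_iff₀ (R.rp_pos hx)).2 (B.p.hi x hx)
    nlinarith [mul_le_mul_of_nonneg_right h2 (sq_nonneg ‖a‖)]
  · obtain ⟨f, h3, h4⟩ := (sup x hx h1 h2).lm a e he
    refine ⟨f, h3, le_trans (le_of_eq ?_) h4⟩
    rw [potD, Dat.rp]
    split_ifs <;> ring

theorem ρm_pos (hx : x ∈ D.Om) : 0 < D.ρm := (R.rp_pos hx).trans_le (R.bas.p.le x hx)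

theorem hρ_le (hx : x ∈ D.Om) : D.h D.ρm ≤ D.h (D.rp x) := by
  rw [← R.H_inv (R.ρm_pos hx), ← R.H_inv (R.rp_pos hx)]
  exact R.des.strictMono.monotoneOn (inv_pos.2 (R.ρm_pos hx)) (inv_pos.2 (R.rp_pos hx))
    (inv_anti₀ (R.rp_pos hx) (R.bas.p.le x hx))

theorem U_eq (x : EE n) : D.U x = U0 D.κ0 (D.h (D.rp x)) (D.h (D.rm x)) := by
  rw [Dat.U, U0, mul_max_of_nonneg _ _ (by linarith [R.k0])]

theorem hp_le (x : EE n) : (1 + D.κ0) * D.h (D.rp x) ≤ D.U x := by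
  rw [R.U_eq]; exact (le_max_left _ _).trans (le_max_right _ _)

theorem hρ_le_U (hx : x ∈ D.Om) : D.h D.ρm ≤ D.U x := by
  have := R.hp_le x
  nlinarith [R.hρ_le hx, R.k0, R.h_pos (R.rp_pos hx)]

theorem U_pos (hx : x ∈ D.Om) : 0 < D.U x := (R.h_pos (R.ρm_pos hx)).trans_le (R.hρ_le_U hx)

theorem data (h0 : 0 < D.ρm) : Data D.v (ph D.β D.v D.ρm) (ph D.β (ng D.v) D.ρm) D.Om ε
    (potD D ε ηt C) (potD D.flip ε ηt C) H H1 H2 kap D.κ0 (D.h D.ρm / 2) η where
  sol := R.bas.sol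
  op := R.bas.op
  sp := R.side
  sq := by
    have := R.flip.side
    rw [flip_Om R.bas.sol] at this
    simp only [Dat.flip, ng_ng] at this
    exact this
  lp := lb_pot R.bas
  lq := flip_Om R.bas.sol ▸ lb_pot R.flip.bas
  des := R.des
  k0_pos := R.k0
  k0_lt := R.k1
  Umin_pos := half_pos (R.h_pos h0)
  e_pos := R.e0
  η_le := R.η1
  e_le := R.e1
  mkap := R.mkap
  bkap := R.bkap
  kato a ha b hb _ := R.kato a b ha hb

theorem UU_eq (hx : x ∈ D.Om) :
    UU H D.κ0 (D.h D.ρm / 2) (ph D.β D.v D.ρm) (ph D.β (ng D.v) D.ρm) x = D.U x := by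
  change max (U0 _ (H (D.rp x)⁻¹) (H (D.rm x)⁻¹)) _ = _
  rw [R.H_inv (R.rp_pos hx), R.H_inv (R.rm_pos hx), ← R.U_eq]
  exact max_eq_left (by linarith [R.hρ_le_U hx, R.h_pos (R.ρm_pos hx)])

theorem am_eq (hx : x ∈ D.Om) :
    am H H1 D.κ0 (D.h D.ρm / 2) (ph D.β D.v D.ρm) (ph D.β (ng D.v) D.ρm) x = thD D x * D.rp x := by
  have p0 := R.rp_pos hx
  have h1 := R.hρ_le_U hx
  have h2 := R.h_pos (R.ρm_pos hx)
  rw [R.U_eq] at h1
  rw [am, R.UU_eq hx, thD, if_pos hx]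
  change cw _ _ (H (D.rp x)⁻¹) (H (D.rm x)⁻¹) * H1 (D.rp x)⁻¹ * (D.rp x)⁻¹ / _ = _
  rw [R.H_inv p0, R.H_inv (R.rm_pos hx), R.H1_inv p0, cw, cw, if_neg (by linarith),
    if_neg (not_le.2 (h2.trans_le h1))]
  field_simp

theorem th' : D.Th' (thD D) := by
  classical
  have cH : ∀ {r : EE n → ℝ}, ContinuousOn r D.Om → (∀ x ∈ D.Om, 0 < r x) →
      ContinuousOn (fun x => D.h (r x)) D.Om := fun {r} c h0 =>
    ContinuousOn.congr (f := fun x => H (r x)⁻¹) (fun x hx =>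
      (R.des.hd _ (inv_pos.2 (h0 x hx))).continuousAt.comp_continuousWithinAt
        (f := fun x => (r x)⁻¹) ((c x hx).inv₀ (h0 x hx).ne')) fun x hx => (R.H_inv (h0 x hx)).symm
  have mp : ∀ {f : EE n → ℝ}, ContinuousOn f D.Om → Measurable (D.Om.piecewise f fun _ => 1) :=
    fun c => c.measurable_piecewise continuousOn_const R.bas.op.measurableSet
  have mc : Measurable fun z : ℝ × ℝ × ℝ => cw D.κ0 0 z.1 z.2.1 * |D.hd z.2.2| / U0 D.κ0 z.1 z.2.1 := by
    have := R.mhd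
    unfold cw U0
    exact ((Measurable.ite (measurableSet_le (by fun_prop) measurable_const) measurable_const
      (Measurable.ite (measurableSet_le (by fun_prop) (by fun_prop)) measurable_const
        (Measurable.ite (measurableSet_le (by fun_prop) (by fun_prop)) measurable_const
          measurable_const))).mul (by fun_prop)).div (by fun_prop)
  have m1 := (mc.comp ((mp (cH (R.bas.p.cont R.bas.op) fun _ => R.rp_pos)).prodMk
    ((mp (cH (R.bas.m.cont R.bas.op) fun _ => R.rm_pos)).prodMk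
      (mp (R.bas.p.cont R.bas.op))))).indicator R.bas.op.measurableSet
  refine ⟨?_, fun x => ?_, fun x hx => ?_, fun x hx h => ?_⟩
  · convert m1 using 1
    funext x
    by_cases hx : x ∈ D.Om
    · simp only [thD, if_pos hx, indicator_of_mem hx, Function.comp, piecewise_eq_of_mem _ _ _ hx,
        R.U_eq]
      rfl
    · rw [thD, if_neg hx, indicator_of_notMem hx]
  · unfold thD
    split_ifs with hx
    · exact div_nonneg (mul_nonneg (cw_nonneg R.k0 _ _ _) (abs_nonneg _)) (R.U_pos hx).le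
    · exact le_rfl
  · rw [thD, if_pos hx, div_mul_cancel₀ _ (R.U_pos hx).ne']
    exact mul_le_mul_of_nonneg_right (cw_le R.k0 _ _ _) (abs_nonneg _)
  · rw [thD, if_pos hx] at h
    have h1 : cw D.κ0 0 (D.h (D.rp x)) (D.h (D.rm x)) ≠ 0 := fun e => h (by simp [e])
    have h2 := R.h_pos (R.rp_pos hx)
    unfold cw at h1
    split_ifs at h1 with a b c
    · exact absurd rfl h1
    · nlinarith [R.k0, R.k1, mul_le_mul_of_nonneg_left b R.k0.le, mul_pos R.k0 h2]
    · exact absurd rfl h1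
    · exact (not_le.1 c).le

theorem grad_ph (hx : x ∈ D.Om) (hd : DifferentiableAt ℝ D.rp x) :
    ∇ (ph D.β D.v D.ρm) x = -(D.rp x ^ 2)⁻¹ • ∇ D.rp x := grad_inv hd (R.rp_pos hx).ne'

theorem th_le (hx : x ∈ D.Om) : thD D x * D.rp x ≤ 2 * H1 1 / D.h D.ρm := by
  have p8 := R.bas.rp8 hx
  have p0 := R.rp_pos hx
  have h1 := R.des.mono (inv_pos.2 p0) (mem_Ioi.2 one_pos) (inv_le_one_of_one_le₀ (by linarith))
  rw [R.H1_inv p0] at h1
  have h2 := R.th'.le x hx
  have h3 := R.th'.nonneg x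
  have h4 := abs_nonneg (D.hd (D.rp x))
  rw [le_div_iff₀ (R.h_pos (R.ρm_pos hx))]
  have h5 := mul_le_mul_of_nonneg_left (R.hρ_le_U hx) (mul_nonneg h3 p0.le)
  have h6 : D.rp x * |D.hd (D.rp x)| ≤ H1 1 := le_trans (by nlinarith [mul_nonneg p0.le h4]) h1
  nlinarith [mul_le_mul_of_nonneg_left h2 p0.le, R.k1, mul_nonneg p0.le h4]

/-- global bounds of one side -/
theorem side_bd : ∃ A : ℝ, 0 ≤ A ∧ ∀ x ∈ D.Om, ‖thD D x • ∇ D.rp x‖ ≤ A ∧
    |thD D x * D.rp x * potD D ε ηt C x| ≤ A ∧ |thD D x * ‖∇ D.rp x‖ ^ 2 / D.rp x| ≤ A := by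
  obtain ⟨K, K0, hK⟩ := hk_hsq n
  set T := |2 * H1 1 / D.h D.ρm|
  have T0 : 0 ≤ T := abs_nonneg _
  have M0 : 0 ≤ D.M := zero_le_one.trans R.bas.M1
  have e0 := R.e0
  refine ⟨T * (D.M * |D.ρm|) + T * ((1 + ε) * K + |C|) + T * (D.M * |D.ρm|) ^ 2, by positivity,
    fun x hx => ?_⟩
  have p0 := R.rp_pos hx
  have t0 := R.th'.nonneg x
  have h1 : thD D x * D.rp x ≤ T := (R.th_le hx).trans (le_abs_self _)
  have h2 : ‖∇ D.rp x‖ / D.rp x ≤ D.M * |D.ρm| := by
    rw [div_le_iff₀ p0]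
    refine (R.bas.p.grad x hx).trans ?_
    have := (R.bas.p.le x hx).trans (le_abs_self _)
    change D.M * D.rp x ^ 2 ≤ _
    rw [sq, mul_assoc]
    gcongr
    exact this
  have h3 : |potD D ε ηt C x| ≤ (1 + ε) * K + |C| := by
    have a1 := hK _ R.bas.sol x
    have a2 := tt_le_one D.v x
    have a3 := R.bas.sol.tt_nonneg x
    have a4 := hsq_nonneg (dd D.v) x
    refine (abs_add_le _ _).trans (add_le_add ?_ ?_)
    · split_ifs
      · rw [abs_zero]; positivity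
      · rw [abs_of_nonneg (by positivity)]
        gcongr
        nlinarith
    · rw [abs_mul, abs_of_nonneg (sq_nonneg (tt D.v x))]
      exact mul_le_of_le_one_right (abs_nonneg _) (pow_le_one₀ a3 a2)
  have a1 : 0 ≤ T * (D.M * |D.ρm|) := by positivity
  have a2 : 0 ≤ T * ((1 + ε) * K + |C|) := by positivity
  have a3 : 0 ≤ T * (D.M * |D.ρm|) ^ 2 := by positivity
  refine ⟨?_, ?_, ?_⟩
  · rw [norm_smul, Real.norm_of_nonneg t0, show thD D x * ‖∇ D.rp x‖ =
      thD D x * D.rp x * (‖∇ D.rp x‖ / D.rp x) by field_simp]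
    linarith [mul_le_mul h1 h2 (by positivity) T0]
  · rw [abs_mul, abs_of_nonneg (mul_nonneg t0 p0.le)]
    linarith [mul_le_mul h1 h3 (abs_nonneg _) T0]
  · rw [abs_of_nonneg (by positivity), show thD D x * ‖∇ D.rp x‖ ^ 2 / D.rp x =
      thD D x * D.rp x * (‖∇ D.rp x‖ / D.rp x) ^ 2 by field_simp]
    linarith [mul_le_mul h1 (pow_le_pow_left₀ (by positivity) h2 2) (by positivity) T0]

/-- **the bridge** -/
theorem out (h0 : 0 < D.ρm) : BrOut D kap ε ηt C η := by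
  have B := R.bas
  have O := sumS (R.data h0)
  have lp := sd_lip B.p B.op
  have lm := sd_lip B.m B.op
  have fO := flip_Om B.sol
  have eU : ∀ x ∈ D.Om, UU H D.κ0 (D.h D.ρm / 2) (ph D.β D.v D.ρm) (ph D.β (ng D.v) D.ρm)
      =ᶠ[𝓝 x] D.U := fun x hx => by
    filter_upwards [B.op.mem_nhds hx] with y hy using R.UU_eq hy
  have eu : ∀ x ∈ D.Om, uu H D.κ0 (D.h D.ρm / 2) (ph D.β D.v D.ρm) (ph D.β (ng D.v) D.ρm)
      =ᶠ[𝓝 x] uD D := fun x hx => (eU x hx).mono fun y hy => by rw [uu, hy, uD]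
  have lU : LocallyLipschitzOn D.Om D.U := fun x hx => by
    obtain ⟨K, t, ht, h⟩ := (R.data h0).scU.locLip B.op hx
    exact ⟨K, t ∩ D.Om, inter_mem ht self_mem_nhdsWithin, fun y hy z hz => by
      rw [← R.UU_eq hy.2, ← R.UU_eq hz.2]; exact h hy.1 hz.1⟩
  have lu : LocallyLipschitzOn D.Om (uD D) :=
    ll_comp lU (F := Real.log) fun x hx => Real.contDiffAt_log.2 (R.U_pos hx).ne'
  have am' : ∀ x ∈ D.Om, am H H1 D.κ0 (D.h D.ρm / 2) (ph D.β (ng D.v) D.ρm) (ph D.β D.v D.ρm) x =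
      thD D.flip x * D.rm x := fun x hx => by
    have := R.flip.am_eq (fO ▸ hx)
    simp only [Dat.flip, ng_ng] at this
    exact this
  have gr : ∀ᵐ x, x ∈ D.Om → ∇ (uD D) x = -(thD D x • ∇ D.rp x + thD D.flip x • ∇ D.rm x) := by
    filter_upwards [O.grad, ae_diff B.op lp, ae_diff B.op lm] with x h1 h2 h3 hx
    have p0 := (R.rp_pos hx).ne'
    have m0 := (R.rm_pos hx).ne'
    rw [← grad_congr (eu x hx), h1 hx, R.am_eq hx, am' x hx, R.grad_ph hx (h2 hx),
      show ∇ (ph D.β (ng D.v) D.ρm) x = _ from R.flip.grad_ph (fO ▸ hx) (h3 hx), smul_smul,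
      smul_smul, neg_add, ← neg_smul, ← neg_smul]
    change (_ / (D.rp x)⁻¹ * _) • _ + (_ / (D.rm x)⁻¹ * -(D.rm x ^ 2)⁻¹) • ∇ D.rm x = _
    congr 2 <;> field_simp
  have eG : ∀ᵐ x, x ∈ D.Om → GG H H1 kap D.κ0 (D.h D.ρm / 2) ε η (ph D.β D.v D.ρm)
      (ph D.β (ng D.v) D.ρm) (potD D ε ηt C) (potD D.flip ε ηt C) x = GD D kap ε ηt C η x := by
    filter_upwards [ae_diff B.op lp, ae_diff B.op lm] with x h2 h3 hx
    have p0 := (R.rp_pos hx).ne'
    have m0 := (R.rm_pos hx).ne'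
    rw [GG, GD, R.am_eq hx, am' x hx, R.UU_eq hx, gsq_eq, gsq_eq, gsq_eq, grad_congr (eu x hx),
      R.grad_ph hx (h2 hx),
      show ∇ (ph D.β (ng D.v) D.ρm) x = _ from R.flip.grad_ph (fO ▸ hx) (h3 hx), norm_smul,
      norm_smul, mul_pow, mul_pow, Real.norm_eq_abs, Real.norm_eq_abs, sq_abs, sq_abs]
    change _ + _ * (_ * (_ / (D.rp x)⁻¹ ^ 2) +
      _ * ((-(D.rm x ^ 2)⁻¹) ^ 2 * ‖∇ D.rm x‖ ^ 2 / (D.rm x)⁻¹ ^ 2)) = _
    congr 3 <;> field_simp
  refine ⟨R.th', R.flip.th', lp, lm, lU, lu, fun x => R.U_pos, ?_, gr, ?_, ?_,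
    fun ζ h1 h2 h3 h4 => ?_⟩
  · filter_upwards [ae_diff B.op lU] with x h hx
    have := (R.U_pos hx).ne'
    rw [show ∇ (uD D) x = _ from grad_comp (h hx) (Real.hasDerivAt_log this), smul_smul,
      mul_inv_cancel₀ this, one_smul]
  · exact O.lb.ms.congr ((ae_restrict_iff' B.op.measurableSet).2 eG)
  · obtain ⟨A, A0, hA⟩ := R.side_bd
    obtain ⟨A', A0', hA'⟩ := R.flip.side_bd
    obtain ⟨k, hk⟩ := R.bkap
    have k0 := (abs_nonneg _).trans (hk 0)
    have η0 := (R.data h0).η_nonneg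
    refine ⟨(A + A') + (k + 1) * (A + A') ^ 2 + (A + A'), ?_⟩
    filter_upwards [gr] with x h hx
    obtain ⟨a1, a2, a3⟩ := hA x hx
    obtain ⟨b1, b2, b3⟩ := hA' x (fO ▸ hx)
    have c1 : ‖∇ (uD D) x‖ ≤ A + A' := by
      rw [h hx, norm_neg]; exact norm_add_le_of_le a1 b1
    have c2 : 0 ≤ (k + 1) * (A + A') ^ 2 := by positivity
    refine ⟨by linarith, (abs_add_three _ _ _).trans (add_le_add (add_le_add ?_ ?_) ?_)⟩
    · rw [abs_neg]; exact (abs_add_le _ _).trans (add_le_add a2 b2)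
    · rw [abs_mul, abs_of_nonneg (sq_nonneg ‖_‖)]
      gcongr
      refine (abs_sub _ _).trans (add_le_add ?_ abs_one.le)
      have d1 : 1 ≤ (1 + ε + D.κ0) * (1 + D.κ0) := by nlinarith [R.e0, R.k0]
      rw [abs_div, abs_mul, abs_of_nonneg (sub_nonneg.2 R.η1), abs_of_pos (one_pos.trans_le d1)]
      refine (div_le_self (mul_nonneg (sub_nonneg.2 R.η1) (abs_nonneg _)) d1).trans ?_
      nlinarith [hk (D.U x), abs_nonneg (kap (D.U x))]
    · rw [abs_mul]
      refine (mul_le_of_le_one_left (abs_nonneg _) ?_).trans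
        ((abs_add_le _ _).trans (add_le_add a3 b3))
      rw [abs_of_nonneg (by have := R.k0; positivity)]
      nlinarith [R.k0, R.k1, R.η1]
  · have z : ∀ x ∉ D.Om, x ∉ tsupport ζ := fun x hx h => hx (h4 h)
    convert O.weak ζ h1 h2 h3 h4 using 1
    · refine integral_congr_ae (eG.mono fun x h => ?_)
      by_cases hx : x ∈ D.Om
      · simp only [h hx]
      · simp only [image_eq_zero_of_notMem_tsupport (z x hx), zero_mul]
    · congr 2 with x
      by_cases hx : x ∈ D.Om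
      · rw [gin_eq, gin_eq, grad_congr (eu x hx)]
      · rw [gin_eq_zero (z x hx), gin_eq_zero (z x hx)]

end Br

/-- **(I1)** on `Dat` -/
theorem BrOut.i1 (O : BrOut D kap ε ηt C η) (hv : Sol D.v) {S : Set (EE n)} {w m : EE n → ℝ}
    (h : Dom D.Om S w m) :
    Integrable (fun x => psi D.v x ^ 2 * (m x * GD D kap ε ηt C η x + ⟪∇ (uD D) x, ∇ m x⟫)) ∧
      ∫ x, psi D.v x ^ 2 * (m x * GD D kap ε ηt C η x + ⟪∇ (uD D) x, ∇ m x⟫) ≤ 0 :=
  let ⟨_, hA⟩ := O.bd
  h.weak hv O.ms (hA.mono fun _ h1 hx => h1 (h.sub hx)) O.weak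

/-- the total amplification, for `H1 ≤ 1`, `y - c ≤ H y` -/
theorem Br.am_sum_le (R : Br D H H1 H2 kap ε ηt C η) {c : ℝ} (hc : 0 ≤ c)
    (h1 : ∀ y, 0 < y → H1 y ≤ 1 ∧ y - c ≤ H y) (hx : x ∈ D.Om) :
    thD D x * D.rp x + thD D.flip x * D.rm x ≤ 1 + 2 * c / D.U x := by
  have p0 := R.rp_pos hx
  have m0 := R.rm_pos hx
  have U0' := R.U_pos hx
  have key : ∀ r, 0 < r → |D.hd r| * r ≤ D.h r + c := fun r hr => by
    obtain ⟨a1, a2⟩ := h1 _ (inv_pos.2 hr)
    rw [R.H1_inv hr] at a1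
    rw [R.H_inv hr] at a2
    have : |D.hd r| * r ≤ r⁻¹ := by rw [← one_div, le_div_iff₀ hr]; linarith
    linarith
  have hU := R.U_eq x
  have e := cw_eq (Umin := 0) R.k0 R.k1 (R.h_pos p0) (R.h_pos m0) (hU ▸ U0')
  have e2 : cw D.κ0 0 (D.h (D.rp x)) (D.h (D.rm x)) + cw D.κ0 0 (D.h (D.rm x)) (D.h (D.rp x)) ≤ 2 := by
    rcases cw_cases (Umin := 0) R.k0 R.k1 (R.h_pos p0) (R.h_pos m0) (hU ▸ U0') with
      ⟨a, b, -⟩ | ⟨a, b, -⟩ | ⟨a, b, -⟩ <;> linarith [R.k1]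
  rw [thD, thD, if_pos hx, if_pos (flip_Om R.bas.sol ▸ hx), flip_U, flip_rm, div_mul_eq_mul_div,
    div_mul_eq_mul_div, ← add_div, one_add_div U0'.ne', div_le_div_iff_of_pos_right U0', hU, ← e]
  change _ + cw D.κ0 0 (D.h (D.rm x)) (D.h (D.rp x)) * |D.hd (D.rm x)| * _ ≤ _
  nlinarith [mul_le_mul_of_nonneg_left (key _ p0) (cw_nonneg R.k0 0 (D.h (D.rp x)) (D.h (D.rm x))),
    mul_le_mul_of_nonneg_left (key _ m0) (cw_nonneg R.k0 0 (D.h (D.rm x)) (D.h (D.rp x))),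
    mul_le_mul_of_nonneg_right e2 hc]

end

end Crest.Agent.N067.W
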